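import Vale.Agent.P076.H223.Plt
import Vale.Agent.P076.H632.Br

/-! # P076 / ASM.BR : `H322.StNSd → ASM.StNSf` (helper223, helper632) -/

namespace Vale.Agent.P076.H223

theorem stPlt : H632.StPlt := by
  intro c0 C0 N hc0 hC0
  obtain ⟨C1, hC1, h⟩ := noPlD_gf c0 hC0
  exact ⟨C1, hC1, fun K n M a T H Q c c' _ _ hM h1 h2 h3 h4 hF hQ hp => h K n M a T H Q c c' hM h1 h3 h2.le h4 hF hQ hp⟩

/-- **the bridge** -/
theorem br (h : H322.StNSd) : ASM.StNSf := H632.br_of stPlt h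

end Vale.Agent.P076.H223

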