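import Vale.Agent.P076.H223.Piece
import Vale.Agent.P122.FI.Pl

/-! # P076 / H223 : the family of pieces of a square of slopes -/

open MeasureTheory Complex Set FourierTransform Vale.Agent.P122.C2 Vale.Agent.P122.AN
open scoped ENNReal NNReal ContDiff

set_option linter.all false

namespace Vale.Agent.P076.H223

open Vale.Agent.P122.R301 (ec norm_ec enorm_ec ec_add ec_zero ec_neg continuous_ec)
open ASM (lp)

/-- the index of the frequency cell with slope cell `θ` in the square `a` -/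
def ix (K n : ℕ) (a θ : Z2) : Z2 := fun k => θ k + 2 ^ (K * n) * a k

open Classical in
/-- the pieces of the square `a` -/
noncomputable def gf (K n : ℕ) (a : Z2) (T : Finset Z2) (H : Z2 → E2 → ℂ) (θ : Z2) : E3 → ℂ :=
  if (∀ k, 0 ≤ θ k ∧ θ k < 2 ^ (K * n)) ∧ ix K n a θ ∈ T then g3 (2 ^ (2 * K * n)) a (H (ix K n a θ)) else 0

theorem lp_apply (k : Z2) (i : Fin 2) : lp k i = (k i : ℝ) := rfl

theorem norm_up_sq (ξ : E3) : ‖up ξ‖ ^ 2 = ξ 0 ^ 2 + ξ 1 ^ 2 := by
  rw [EuclideanSpace.norm_sq_eq]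
  simp [Fin.sum_univ_two]

theorem bd_int {r : ℝ} {G : E2 → ℂ} (h : ASM.Bd r G) : Integrable G ∧ MemLp G 2 := by
  obtain ⟨b, hb⟩ := h.bdd
  have hb0 : 0 ≤ b := (norm_nonneg _).trans (hb 0)
  have hG : ∀ η, ‖G η‖ ≤ (Metric.closedBall (0 : E2) r).indicator (fun _ => b) η := by
    intro η
    by_cases h1 : η ∈ Metric.closedBall (0 : E2) r
    · rw [indicator_of_mem h1]; exact hb η
    · rw [indicator_of_notMem h1]
      have : G η = 0 := by
        by_contra h2
        exact h1 (by simpa using h.supp η h2)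
      rw [this, norm_zero]
  have hfin : volume (Metric.closedBall (0 : E2) r) < ⊤ := measure_closedBall_lt_top
  have hi : Integrable G := by
    refine Integrable.mono' (g := (Metric.closedBall (0 : E2) r).indicator (fun _ => b)) ?_ h.meas.aestronglyMeasurable
      (Filter.Eventually.of_forall hG)
    exact (integrable_indicator_iff measurableSet_closedBall).2 (integrableOn_const hfin.ne (by simp))
  refine ⟨hi, ?_⟩
  rw [memLp_two_iff_integrable_sq_norm hi.aestronglyMeasurable]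
  refine Integrable.mono' (hi.norm.const_mul b) (hi.aestronglyMeasurable.norm.pow 2) ?_
  filter_upwards with ξ
  rw [Real.norm_of_nonneg (by positivity), sq]
  exact mul_le_mul_of_nonneg_right (hb ξ) (norm_nonneg _)

variable {K n : ℕ} {c0 : ℝ} {T : Finset Z2} {H : Z2 → E2 → ℂ}

theorem pow_RL (K n : ℕ) : (2 : ℝ) ^ (2 * K * n) = (2 ^ (K * n)) ^ 2 := by
  rw [← pow_mul]; ring_nf

theorem par_gf (hF : ASM.Fam (2 ^ (K * n)) c0 T H) {C0 : ℝ} (hC : 1 ≤ C0) (hc : c0 ≤ C0) (a : Z2) :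
    NS.Par C0 K n (gf K n a T H) := by
  have hR : (0:ℝ) < 2 ^ (2 * K * n) := by positivity
  have hL : (0:ℝ) < 2 ^ (K * n) := by positivity
  have hne : ∀ {θ : Z2} {ξ : E3}, gf K n a T H θ ξ ≠ 0 → (∀ k, 0 ≤ θ k ∧ θ k < 2 ^ (K * n)) ∧ ix K n a θ ∈ T ∧
      g3 (2 ^ (2 * K * n)) a (H (ix K n a θ)) ξ ≠ 0 := by
    intro θ ξ h
    unfold gf at h
    split_ifs at h with h1
    · exact ⟨h1.1, h1.2, h⟩
    · exact absurd rfl h
  constructor
  · intro θ
    unfold gf
    split_ifs with h1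
    · exact g3_int hR (bd_int (hF.bd _ h1.2)).1 (hF.bd _ h1.2).meas
    · exact integrable_zero _ _ _
  · intro θ ξ h
    exact_mod_cast (hne h).1
  · intro θ ξ h
    trivial
  · intro θ ξ h k
    obtain ⟨h1, h2, h3⟩ := hne h
    unfold g3 at h3
    have h4 := hF.cell _ h2 _ (left_ne_zero_of_mul h3) k
    have e : 2 * hf a (up ξ) k = hz ξ k + a k := by
      unfold hf
      simp only [PiLp.smul_apply, PiLp.add_apply, smul_eq_mul, lp_apply]
      have : up ξ k = hz ξ k := by fin_cases k <;> rfl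
      rw [this]
      ring
    rw [e] at h4
    have e2 : ((ix K n a θ k : ℤ) : ℝ) / 2 ^ (K * n) = θ k / 2 ^ (K * n) + a k := by
      unfold ix
      push_cast
      field_simp
    rw [e2] at h4
    calc |id (hz ξ) k - θ k / 2 ^ (K * n)| = |hz ξ k + a k - (θ k / 2 ^ (K * n) + a k)| := by
          congr 1; simp only [id]; ring
      _ ≤ c0 / 2 ^ (K * n) := h4
      _ ≤ C0 / 2 ^ (K * n) := by gcongr
  · intro θ ξ h
    obtain ⟨h1, h2, h3⟩ := hne h
    unfold g3 at h3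
    have h4 := bb_supp (right_ne_zero_of_mul (right_ne_zero_of_mul h3))
    rw [abs_mul, abs_of_pos hR] at h4
    have e : ξ 2 - NS.hP (hz ξ) = ξ 2 + ‖up ξ‖ ^ 2 / 2 := by
      unfold NS.hP hz
      rw [norm_up_sq]
      simp
      ring
    rw [e, le_div_iff₀ hR, mul_comm]
    linarith

/-- mass of one piece -/
theorem mass_g3 {R : ℝ} (hR : 0 < R) {a : Z2} {G : E2 → ℂ} (hm : Measurable G) (h1 : Integrable G) (h2 : MemLp G 2) :
    ∫⁻ z, ‖𝓕⁻ (g3 R a G) z‖ₑ ^ 2 ≤ ENNReal.ofReal R * ∫⁻ η, ‖G η‖ₑ ^ 2 := by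
  have hmeas := g3_meas (R := R) (a := a) hm
  have key : ∫⁻ ξ, ‖g3 R a G ξ‖ₑ ^ 2 ≤ ENNReal.ofReal R * ∫⁻ η, ‖G η‖ₑ ^ 2 := by
    have hbb : ∫⁻ u : ℝ, ‖bb u‖ₑ ^ 2 ≤ ENNReal.ofReal (1 / 4) := by
      calc ∫⁻ u : ℝ, ‖bb u‖ₑ ^ 2 ≤ ∫⁻ u : ℝ, (Set.Icc (-(1 / 8 : ℝ)) (1 / 8)).indicator 1 u := by
            refine lintegral_mono fun u => ?_
            by_cases h : u ∈ Set.Icc (-(1 / 8 : ℝ)) (1 / 8)
            · rw [indicator_of_mem h]
              have : ‖bb u‖ₑ ≤ 1 := by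
                rw [← ofReal_norm, ← ENNReal.ofReal_one]
                exact ENNReal.ofReal_le_ofReal (bb_le u)
              exact pow_le_one₀ (by positivity) this
            · rw [indicator_of_notMem h]
              have : bb u = 0 := by
                by_contra h3
                exact h (abs_le.1 (bb_supp h3))
              rw [this]
              simp
        _ = ENNReal.ofReal (1 / 4) := by
            rw [lintegral_indicator_one measurableSet_Icc, Real.volume_Icc]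
            norm_num
    rw [lint_jn (by fun_prop)]
    have e : ∀ (u : ℝ) (v : E2), ‖g3 R a G (jn v u)‖ₑ ^ 2 =
        (ENNReal.ofReal (R ^ 2) * ‖bb (R * (u + ‖v‖ ^ 2 / 2))‖ₑ ^ 2) * ‖G (hf a v)‖ₑ ^ 2 := by
      intro u v
      unfold g3
      rw [up_jn, jn_2, enorm_mul, enorm_mul, mul_pow, mul_pow, ← ofReal_norm ((R : ℂ)), Complex.norm_real,
        Real.norm_of_nonneg hR.le, ← ENNReal.ofReal_pow hR.le]
      ring
    simp_rw [e]
    have hb : Measurable (fun p : ℝ × E2 => bb (R * (p.1 + ‖p.2‖ ^ 2 / 2))) := bb_cont.measurable.comp (by fun_prop)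
    have hg : Measurable (fun v : E2 => G (hf a v)) := hm.comp (hf_meas a)
    rw [lintegral_lintegral_swap (by
      refine Measurable.aemeasurable ?_
      have hg' : Measurable (fun p : ℝ × E2 => ‖G (hf a p.2)‖ₑ ^ 2) := (hg.comp measurable_snd).enorm.pow_const 2
      exact ((hb.enorm.pow_const 2).const_mul _).mul hg')]
    have e2 : ∀ v : E2, ∫⁻ u : ℝ, (ENNReal.ofReal (R ^ 2) * ‖bb (R * (u + ‖v‖ ^ 2 / 2))‖ₑ ^ 2) * ‖G (hf a v)‖ₑ ^ 2 ≤
        ENNReal.ofReal (R / 4) * ‖G (hf a v)‖ₑ ^ 2 := by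
      intro v
      have hu : Measurable (fun u : ℝ => ‖bb (R * (u + ‖v‖ ^ 2 / 2))‖ₑ ^ 2) :=
        (bb_cont.measurable.comp (by fun_prop)).enorm.pow_const 2
      rw [lintegral_mul_const _ (hu.const_mul _), lintegral_const_mul _ hu]
      gcongr
      rw [lintegral_add_right_eq_self (fun u : ℝ => ‖bb (R * u)‖ₑ ^ 2) (‖v‖ ^ 2 / 2)]
      have e3 : ∫⁻ u : ℝ, ‖bb (R * u)‖ₑ ^ 2 = ENNReal.ofReal R⁻¹ * ∫⁻ u : ℝ, ‖bb u‖ₑ ^ 2 := by
        have he : MeasurableEmbedding (fun u : ℝ => R * u) := (Homeomorph.mulLeft₀ R hR.ne').measurableEmbedding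
        rw [← he.lintegral_map (fun u => ‖bb u‖ₑ ^ 2), Real.map_volume_mul_left hR.ne', lintegral_smul_measure, smul_eq_mul,
          abs_of_pos (inv_pos.2 hR)]
      rw [e3]
      calc ENNReal.ofReal (R ^ 2) * (ENNReal.ofReal R⁻¹ * ∫⁻ u : ℝ, ‖bb u‖ₑ ^ 2) ≤
          ENNReal.ofReal (R ^ 2) * (ENNReal.ofReal R⁻¹ * ENNReal.ofReal (1 / 4)) := by gcongr
        _ = ENNReal.ofReal (R / 4) := by
            rw [← ENNReal.ofReal_mul (by positivity), ← ENNReal.ofReal_mul (by positivity)]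
            congr 1
            field_simp
    calc _ ≤ ∫⁻ v : E2, ENNReal.ofReal (R / 4) * ‖G (hf a v)‖ₑ ^ 2 := lintegral_mono e2
      _ = ENNReal.ofReal R * ∫⁻ η, ‖G η‖ₑ ^ 2 := by
          rw [lintegral_const_mul _ (hg.enorm.pow_const 2), lint_hf a (fun η => ‖G η‖ₑ ^ 2), ← mul_assoc]
          congr 1
          rw [show (4 : ℝ≥0∞) = ENNReal.ofReal 4 by norm_num, ← ENNReal.ofReal_mul (by positivity)]
          congr 1
          ring
  have hi := g3_int hR (a := a) h1 hm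
  have h2' : MemLp (g3 R a G) 2 := by
    refine ⟨hi.aestronglyMeasurable, ?_⟩
    rw [eLpNorm_lt_top_iff_lintegral_rpow_enorm_lt_top (by norm_num) (by norm_num)]
    simp only [ENNReal.toReal_ofNat]
    refine lt_of_le_of_lt (b := ENNReal.ofReal R * ∫⁻ η, ‖G η‖ₑ ^ 2) ?_ ?_
    · refine le_trans (le_of_eq ?_) key
      refine lintegral_congr fun z => ?_
      rw [← ENNReal.rpow_natCast]; norm_num
    · refine ENNReal.mul_lt_top ENNReal.ofReal_lt_top ?_
      have := (eLpNorm_lt_top_iff_lintegral_rpow_enorm_lt_top (by norm_num) (by norm_num)).1 h2.2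
      simp only [ENNReal.toReal_ofNat] at this
      refine lt_of_le_of_lt (le_of_eq ?_) this
      refine lintegral_congr fun z => ?_
      rw [← ENNReal.rpow_natCast]; norm_num
  have hp : ∫⁻ x, ‖𝓕⁻ (g3 R a G) x‖ₑ ^ 2 = ∫⁻ ξ, ‖g3 R a G ξ‖ₑ ^ 2 := by
    rw [← Vale.Agent.P122.FI.planch (g3 R a G) hi h2']
    refine lintegral_congr fun x => ?_
    rw [Vale.Agent.P122.FI.inv_eq_int]
  rw [hp]
  exact key

end Vale.Agent.P076.H223
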