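import Vale.Agent.P076.H223.Fub
import Vale.Agent.P076.ASM.Defs
import Vale.Agent.P076.NS.Defs

/-! # P076 / H223 : the pieces in `ℝ³` -/

open MeasureTheory Complex Set FourierTransform Vale.Agent.P122.C2 Vale.Agent.P122.AN
open scoped ENNReal NNReal ContDiff

set_option linter.all false

namespace Vale.Agent.P076.H223

open Vale.Agent.P122.R301 (ec norm_ec enorm_ec ec_add ec_zero ec_neg continuous_ec)
open ASM (lp)

/-- the frequency `η` of the slope `v` in the square `a` -/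
noncomputable def hf (a : Z2) (v : E2) : E2 := (1 / 2 : ℝ) • (v + lp a)

/-- piece in `ℝ³` -/
noncomputable def g3 (R : ℝ) (a : Z2) (H : E2 → ℂ) (ξ : E3) : ℂ :=
  H (hf a (up ξ)) * ((R : ℂ) * bb (R * (ξ 2 + ‖up ξ‖ ^ 2 / 2)))

theorem up_meas : Measurable up := by
  unfold up
  fun_prop

theorem up_cont : Continuous up := by
  unfold up
  fun_prop

theorem hf_meas (a : Z2) : Measurable (hf a) := by
  unfold hf
  fun_prop

theorem g3_meas {R : ℝ} {a : Z2} {H : E2 → ℂ} (hH : Measurable H) : Measurable (g3 R a H) := by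
  unfold g3
  have h1 : Measurable (fun ξ : E3 => H (hf a (up ξ))) := hH.comp ((hf_meas a).comp up_meas)
  have h2 : Measurable (fun ξ : E3 => bb (R * (ξ 2 + ‖up ξ‖ ^ 2 / 2))) := by
    have h3 : Measurable (fun ξ : E3 => R * (ξ 2 + ‖up ξ‖ ^ 2 / 2)) := by
      have := up_meas
      fun_prop
    exact bb_cont.measurable.comp h3
  exact h1.mul (measurable_const.mul h2)

/-- the inner integral -/
theorem inner_int {R : ℝ} (hR : 0 < R) (c s : ℝ) :
    ∫ u : ℝ, ec (u * s) * ((R : ℂ) * bb (R * (u + c))) = ec (-(c * s)) * ph0 (s / R) := by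
  have h2 : ∫ u : ℝ, ec (u * s) * ((R : ℂ) * bb (R * (u + c))) =
      (R : ℂ) * ∫ u : ℝ, ec ((u - c) * s) * bb (R * u) := by
    rw [← integral_const_mul]
    rw [← integral_sub_right_eq_self (fun u : ℝ => ec (u * s) * ((R : ℂ) * bb (R * (u + c)))) c]
    refine integral_congr_ae (Filter.Eventually.of_forall fun u => ?_)
    simp only [sub_add_cancel]
    ring
  rw [h2]
  have h3 : ∫ u : ℝ, ec ((u - c) * s) * bb (R * u) = ((R⁻¹ : ℝ) : ℂ) * ∫ w : ℝ, ec ((w / R - c) * s) * bb w := by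
    have := Measure.integral_comp_mul_left (fun w : ℝ => ec ((w / R - c) * s) * bb w) R
    rw [abs_of_pos (inv_pos.2 hR)] at this
    rw [← Complex.real_smul, ← this]
    refine integral_congr_ae (Filter.Eventually.of_forall fun u => ?_)
    simp only
    rw [mul_div_cancel_left₀ _ hR.ne']
  rw [h3, ← mul_assoc, ← Complex.ofReal_mul, mul_inv_cancel₀ hR.ne', Complex.ofReal_one, one_mul]
  unfold ph0
  rw [← integral_const_mul]
  refine integral_congr_ae (Filter.Eventually.of_forall fun w => ?_)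
  simp only
  rw [← mul_assoc, ← ec_add]
  congr 2
  field_simp
  ring

/-- change of variables `v = 2 η - a` -/
theorem int_hf (a : Z2) (F : E2 → ℂ) : ∫ v : E2, F (hf a v) = 4 * ∫ η : E2, F η := by
  unfold hf
  rw [integral_add_right_eq_self (fun v : E2 => F ((1 / 2 : ℝ) • v)) (lp a)]
  rw [Measure.integral_comp_smul]
  simp
  left
  norm_num

theorem lint_hf (a : Z2) (F : E2 → ℝ≥0∞) : ∫⁻ v : E2, F (hf a v) = 4 * ∫⁻ η : E2, F η := by
  unfold hf
  rw [lintegral_add_right_eq_self (fun v : E2 => F ((1 / 2 : ℝ) • v)) (lp a)]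
  have he : MeasurableEmbedding (fun v : E2 => (1 / 2 : ℝ) • v) :=
    (Homeomorph.smulOfNeZero (1 / 2 : ℝ) (by norm_num)).measurableEmbedding
  rw [← he.lintegral_map, Measure.map_addHaar_smul volume (by norm_num : (1 / 2 : ℝ) ≠ 0), lintegral_smul_measure]
  simp
  norm_num

/-- bounded measurable functions with bounded support are integrable -/
theorem g3_int {R : ℝ} (hR : 0 < R) {a : Z2} {H : E2 → ℂ} (hH : Integrable H) (hm : Measurable H) :
    Integrable (g3 R a H) := by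
  rw [integrable_jn]
  have h1 : Integrable (fun v : E2 => H (hf a v)) := by
    unfold hf
    have h2 : Integrable (fun v : E2 => H ((1 / 2 : ℝ) • v)) := hH.comp_smul (by norm_num)
    exact h2.comp_add_right (lp a)
  have hmeas : Measurable (fun p : E2 × ℝ => g3 R a H (jn p.1 p.2)) := by
    have : (fun p : E2 × ℝ => g3 R a H (jn p.1 p.2)) = g3 R a H ∘ jne := by
      ext p; simp [jne_apply]
    rw [this]
    exact (g3_meas hm).comp jne.measurable
  rw [Measure.volume_eq_prod, integrable_prod_iff hmeas.aestronglyMeasurable]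
  have hu : ∀ v : E2, Integrable (fun u : ℝ => (R : ℂ) * bb (R * (u + ‖v‖ ^ 2 / 2))) := by
    intro v
    have h3 : Integrable (fun u : ℝ => bb (R * u)) := bb_int.comp_mul_left' hR.ne'
    exact (h3.comp_add_right (‖v‖ ^ 2 / 2)).const_mul _
  have hn : ∀ v : E2, ∫ u : ℝ, ‖g3 R a H (jn v u)‖ = ‖H (hf a v)‖ * ∫ u : ℝ, ‖bb u‖ := by
    intro v
    have : ∀ u : ℝ, ‖g3 R a H (jn v u)‖ = ‖H (hf a v)‖ * (R * ‖bb (R * (u + ‖v‖ ^ 2 / 2))‖) := by
      intro u
      unfold g3
      rw [up_jn, jn_2, norm_mul, norm_mul, Complex.norm_real, Real.norm_of_nonneg hR.le]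
    simp_rw [this]
    rw [integral_const_mul, integral_const_mul]
    congr 1
    rw [integral_add_right_eq_self (fun u : ℝ => ‖bb (R * u)‖) (‖v‖ ^ 2 / 2)]
    rw [Measure.integral_comp_mul_left (fun u : ℝ => ‖bb u‖) R, abs_of_pos (inv_pos.2 hR), smul_eq_mul, ← mul_assoc,
      mul_inv_cancel₀ hR.ne', one_mul]
  constructor
  · filter_upwards with v
    have : (fun u : ℝ => g3 R a H (jn v u)) = fun u => H (hf a v) * ((R : ℂ) * bb (R * (u + ‖v‖ ^ 2 / 2))) := by
      ext u
      unfold g3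
      rw [up_jn, jn_2]
    rw [this]
    exact (hu v).const_mul _
  · simp_rw [hn]
    exact h1.norm.mul_const _

theorem four_g3 {R : ℝ} (hR : 0 < R) {a : Z2} {H : E2 → ℂ} (hH : Integrable H) (hm : Measurable H) (z : E3) :
    𝓕⁻ (g3 R a H) z = 4 * ph0 (z 2 / R) * ec (-(inner ℝ (lp a) (up z) + z 2 * ‖lp a‖ ^ 2 / 2)) *
      evo H ((2 : ℝ) • up z + (2 * z 2) • lp a) (2 * z 2) 0 := by
  rw [Vale.Agent.P122.R301.inv_eq, int_jn]
  have hi := g3_int hR (a := a) hH hm
  have hi2 : Integrable (fun p : E2 × ℝ => ec (inner ℝ (jn p.1 p.2) z) * g3 R a H (jn p.1 p.2)) := by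
    rw [← integrable_jn (fun ξ => ec (inner ℝ ξ z) * g3 R a H ξ)]
    refine hi.norm.mono' ?_ ?_
    · have hc : Continuous (fun ξ : E3 => ec (inner ℝ ξ z)) := continuous_ec.comp (by fun_prop)
      exact hc.aestronglyMeasurable.mul hi.aestronglyMeasurable
    · filter_upwards with ξ
      rw [norm_mul, norm_ec, one_mul]
  rw [Measure.volume_eq_prod, integral_prod _ (by rwa [Measure.volume_eq_prod] at hi2)]
  have h1 : ∀ v : E2, ∫ u : ℝ, ec (inner ℝ (jn v u) z) * g3 R a H (jn v u) =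
      (H (hf a v) * (ec (inner ℝ v (up z)) * ec (-(‖v‖ ^ 2 / 2 * z 2)))) * ph0 (z 2 / R) := by
    intro v
    have : ∀ u : ℝ, ec (inner ℝ (jn v u) z) * g3 R a H (jn v u) =
        (H (hf a v) * ec (inner ℝ v (up z))) * (ec (u * z 2) * ((R : ℂ) * bb (R * (u + ‖v‖ ^ 2 / 2)))) := by
      intro u
      unfold g3
      rw [up_jn, jn_2, inner_jn, ec_add]
      ring
    simp_rw [this]
    rw [integral_const_mul, inner_int hR]
    ring
  simp_rw [h1]
  rw [integral_mul_const]
  have h2 : ∀ v : E2, H (hf a v) * (ec (inner ℝ v (up z)) * ec (-(‖v‖ ^ 2 / 2 * z 2))) =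
      (fun η : E2 => H η * ec (inner ℝ ((2 : ℝ) • η - lp a) (up z) - ‖(2 : ℝ) • η - lp a‖ ^ 2 / 2 * z 2)) (hf a v) := by
    intro v
    have : (2 : ℝ) • hf a v - lp a = v := by
      unfold hf
      rw [smul_smul]
      norm_num
    simp only [this]
    rw [sub_eq_add_neg, ec_add]
  rw [integral_congr_ae (Filter.Eventually.of_forall h2),
    int_hf a (fun η : E2 => H η * ec (inner ℝ ((2 : ℝ) • η - lp a) (up z) - ‖(2 : ℝ) • η - lp a‖ ^ 2 / 2 * z 2))]
  have h3 : ∀ η : E2, H η * ec (inner ℝ ((2 : ℝ) • η - lp a) (up z) - ‖(2 : ℝ) • η - lp a‖ ^ 2 / 2 * z 2) =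
      ec (-(inner ℝ (lp a) (up z) + z 2 * ‖lp a‖ ^ 2 / 2)) *
        (ec (inner ℝ ((2 : ℝ) • up z + (2 * z 2) • lp a) η - 2 * z 2 * ‖η‖ ^ 2) * H η) := by
    intro η
    rw [← mul_assoc, ← ec_add, mul_comm]
    congr 2
    have e1 : ‖(2 : ℝ) • η - lp a‖ ^ 2 = 4 * ‖η‖ ^ 2 - 4 * inner ℝ η (lp a) + ‖lp a‖ ^ 2 := by
      rw [@norm_sub_sq_real, norm_smul, inner_smul_left]
      simp
      ring
    rw [e1, inner_sub_left, inner_smul_left, inner_add_left, inner_smul_left, inner_smul_left,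
      real_inner_comm (up z) η, real_inner_comm (lp a) η]
    simp
    ring
  rw [integral_congr_ae (Filter.Eventually.of_forall h3), integral_const_mul]
  have h4 : ∫ η : E2, ec (inner ℝ ((2 : ℝ) • up z + (2 * z 2) • lp a) η - 2 * z 2 * ‖η‖ ^ 2) * H η =
      evo H ((2 : ℝ) • up z + (2 * z 2) • lp a) (2 * z 2) 0 := by
    unfold evo
    refine integral_congr_ae (Filter.Eventually.of_forall fun η => ?_)
    simp only [zero_mul, Complex.ofReal_zero, sub_zero]
    congr 1
    unfold Vale.Agent.P122.R301.ec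
    congr 1
    push_cast
    ring
  rw [h4]
  ring

end Vale.Agent.P076.H223
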