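import Vale.Agent.P076.H223.Split
import Vale.Agent.P076.H223.Mean
import Vale.Agent.P076.H819.KerT
import Vale.Agent.P122.W840.Sum

/-! # P076 / H223 : energies of tubes in a plate and masses of plates -/

open MeasureTheory Complex Set FourierTransform Vale.Agent.P122.C2 Vale.Agent.P122.AN
open scoped ENNReal NNReal ContDiff

set_option linter.all false

namespace Vale.Agent.P076.H223

open Vale.Agent.P122.R301 (ec norm_ec enorm_ec ec_add ec_zero ec_neg continuous_ec)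
open ASM (lp)

/-- the slope of a cell as a vector -/
noncomputable def sl (L : ℝ) (θ : Z2) : E2 := (1 / L) • lp θ

/-- the base point of the plate -/
noncomputable def pt (θ b L R : ℝ) (T : ℤ) : E3 := !₂[b * L * (-Real.sin θ), b * L * Real.cos θ, R * T]

/-- the weight of the plate at time `0` -/
noncomputable def plw (p L θ β : ℝ) (y : E2) : ℝ := 1 + |fn θ (fun k => y k) - β| / (p * L) + ‖y‖ / L ^ 2

/-- the displacement -/
noncomputable def Dsp (L : ℝ) (a θ : Z2) (z : E3) (y : E2) : E2 :=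
  ((2 : ℝ) • up z + (2 * z 2) • lp a) - y - (2 * (2 * z 2)) • ((1 / 2 : ℝ) • (sl L θ + lp a))

theorem Dsp_apply (L : ℝ) (a θ : Z2) (z : E3) (y : E2) (k : Fin 2) :
    Dsp L a θ z y k = 2 * dv (fun k => (θ k : ℝ) / L) z k - y k := by
  unfold Dsp sl dv
  simp only [PiLp.sub_apply, PiLp.add_apply, PiLp.smul_apply, smul_eq_mul, lp_apply]
  fin_cases k <;> simp <;> ring

theorem abs_apply_le (x : E2) (k : Fin 2) : |x k| ≤ ‖x‖ := by
  have := PiLp.norm_apply_le x k
  rwa [Real.norm_eq_abs] at this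

theorem norm_le_add (x : E2) : ‖x‖ ≤ |x 0| + |x 1| := by
  rw [EuclideanSpace.norm_eq, Fin.sum_univ_two]
  apply Real.sqrt_le_iff.2
  constructor
  · positivity
  · rw [Real.norm_eq_abs, Real.norm_eq_abs]
    nlinarith [abs_nonneg (x 0), abs_nonneg (x 1)]

theorem fin_aux {C0 j X G : ℝ} (hC : 1 ≤ C0) (hj1 : 1 ≤ j) (hX0 : 0 ≤ X) (hG0 : 0 ≤ G) :
    10 * (C0 * G) + (26 * C0 + 5) + 4 * (j * X) ≤ 60 * C0 * (j * (1 + X)) * (1 + G) := by
  have hjX : 0 ≤ j * X := by positivity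
  have c1 : 1 + j * X ≤ j * (1 + X) := by nlinarith
  have c2 : 1 + j * X + G ≤ (j * (1 + X)) * (1 + G) := by nlinarith [mul_nonneg hjX hG0]
  have hCG : 0 ≤ C0 * G := by positivity
  calc 10 * (C0 * G) + (26 * C0 + 5) + 4 * (j * X) ≤ 60 * C0 * (1 + j * X + G) := by nlinarith
    _ ≤ 60 * C0 * ((j * (1 + X)) * (1 + G)) := by gcongr
    _ = _ := by ring

theorem aux_le {R L p G : ℝ} (hR : R = L ^ 2) (hL : 0 < L) (hpL : p ≤ L) (hG : 0 ≤ G) : p * L * G ≤ R * G := by
  rw [hR, sq]; gcongr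

theorem aux_b {C0 R L b : ℝ} (hR : R = L ^ 2) (hL : 0 < L) (hb : |b| ≤ (2 * C0 + 1) * L) : |b * L| ≤ (2 * C0 + 1) * R := by
  rw [abs_mul, abs_of_pos hL, hR, sq, ← mul_assoc]; gcongr

theorem aux_T {C0 R T x : ℝ} (hR : 0 < R) (hT : |T| ≤ C0) (hx : |x| ≤ 2) : |R * T * x| ≤ 2 * C0 * R := by
  rw [abs_mul, abs_mul, abs_of_pos hR]
  have h0 : 0 ≤ C0 := (abs_nonneg _).trans hT
  calc R * |T| * |x| ≤ R * C0 * 2 := by gcongr
    _ = _ := by ring

/-- geometry of the plate -/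
theorem geo {C0 L R R1 p θ b v : ℝ} {a τ : Z2} {T : ℤ} (hC : 1 ≤ C0) (hL : 1 ≤ L) (hR : R = L ^ 2) (hR1 : 0 < R1)
    (hR1' : R1 ≤ C0 * R) (hp : 1 ≤ p) (hpL : p ≤ L)
    (hτ : ∀ k, 0 ≤ (τ k : ℝ) ∧ (τ k : ℝ) ≤ L) (hv : |fn θ (fun k => (τ k : ℝ) / L) - v| ≤ p / L) (hT : |(T : ℝ)| ≤ C0)
    (hb : |b| ≤ (2 * C0 + 1) * L) (z : E3) (y : E2) :
    plw p L θ (2 * (b * L - v * (R * T))) y ≤ 60 * C0 * ((1 + |2 * z 2| / R) *
      (1 + ‖Dsp L a τ z y‖ / (L * (1 + |2 * z 2| / R)))) *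
        (1 + gau θ R1 (p * L) R (fun k => (τ k : ℝ) / L) (z - pt θ b L R T)) := by
  have hL0 : 0 < L := by linarith
  have hR0 : 0 < R := by rw [hR]; positivity
  have hp0 : 0 < p := by linarith
  have hpL0 : 0 < p * L := by positivity
  set s : Fin 2 → ℝ := fun k => (τ k : ℝ) / L with hs
  set D := Dsp L a τ z y with hD
  set j := 1 + |2 * z 2| / R with hj
  have hj1 : 1 ≤ j := by rw [hj]; have : 0 ≤ |2 * z 2| / R := by positivity
                         linarith
  set G := gau θ R1 (p * L) R s (z - pt θ b L R T) with hG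
  have hG0 : 0 ≤ G := gau_nonneg hR1 hpL0 hR0 _
  have hRG : R * G ≤ C0 * R * G := by
    have : 0 ≤ R * G := by positivity
    nlinarith
  have e1 : dv s (z - pt θ b L R T) = fun k => dv s z k - dv s (pt θ b L R T) k := by
    funext k
    unfold dv
    fin_cases k <;> simp <;> ring
  have f1 : |fw θ (dv s (z - pt θ b L R T))| ≤ C0 * R * G := by
    refine le_trans ?_ (mul_le_mul_of_nonneg_right hR1' hG0)
    have : |fw θ (dv s (z - pt θ b L R T))| / R1 ≤ G := by
      rw [hG]; unfold gau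
      have h1 : 0 ≤ |fn θ (dv s (z - pt θ b L R T))| / (p * L) := by positivity
      have h2 : 0 ≤ |(z - pt θ b L R T) 2| / R := by positivity
      linarith
    rwa [div_le_iff₀ hR1, mul_comm] at this
  have f2 : |fn θ (dv s (z - pt θ b L R T))| ≤ p * L * G := by
    have : |fn θ (dv s (z - pt θ b L R T))| / (p * L) ≤ G := by
      rw [hG]; unfold gau
      have h1 : 0 ≤ |fw θ (dv s (z - pt θ b L R T))| / R1 := by positivity
      have h2 : 0 ≤ |(z - pt θ b L R T) 2| / R := by positivity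
      linarith
    rwa [div_le_iff₀ hpL0, mul_comm] at this
  have f2' : |fn θ (dv s (z - pt θ b L R T))| ≤ C0 * R * G := by
    exact (f2.trans (aux_le hR hL0 hpL hG0)).trans hRG
  have sc := Real.sin_sq_add_cos_sq θ
  have g1 : fn θ (dv s (pt θ b L R T)) = b * L - R * T * fn θ s := by
    unfold fn dv pt
    simp
    linear_combination (b * L) * sc
  have g2 : fw θ (dv s (pt θ b L R T)) = - (R * T * fw θ s) := by
    unfold fw dv pt
    simp
    ring
  have hs01 : ∀ k, |s k| ≤ 1 := by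
    intro k
    rw [hs]
    simp only
    rw [abs_of_nonneg (div_nonneg (hτ k).1 hL0.le), div_le_one hL0]
    exact (hτ k).2
  have hfns : |fn θ s| ≤ 2 := (abs_fn_le θ s).trans (by linarith [hs01 0, hs01 1])
  have hfws : |fw θ s| ≤ 2 := (abs_fw_le θ s).trans (by linarith [hs01 0, hs01 1])
  -- the coordinates of `dv s z`
  have a1 : |fn θ (dv s z)| ≤ C0 * R * G + (4 * C0 + 1) * R := by
    have e : fn θ (dv s z) = fn θ (dv s (z - pt θ b L R T)) + fn θ (dv s (pt θ b L R T)) := by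
      rw [e1, fn_sub]; ring
    rw [e, g1]
    have h1 : |b * L| ≤ (2 * C0 + 1) * R := aux_b hR hL0 hb
    have h2 : |R * T * fn θ s| ≤ 2 * C0 * R := aux_T hR0 hT hfns
    calc |fn θ (dv s (z - pt θ b L R T)) + (b * L - R * T * fn θ s)| ≤
        |fn θ (dv s (z - pt θ b L R T))| + (|b * L| + |R * T * fn θ s|) :=
          (abs_add_le _ _).trans (by gcongr; exact abs_sub _ _)
      _ ≤ C0 * R * G + ((2 * C0 + 1) * R + 2 * C0 * R) := by gcongr
      _ = _ := by ring
  have a2 : |fw θ (dv s z)| ≤ C0 * R * G + 2 * C0 * R := by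
    have e : fw θ (dv s z) = fw θ (dv s (z - pt θ b L R T)) + fw θ (dv s (pt θ b L R T)) := by
      rw [e1, fw_sub]; ring
    rw [e, g2]
    have h2 : |-(R * T * fw θ s)| ≤ 2 * C0 * R := by
      rw [abs_neg]; exact aux_T hR0 hT hfws
    exact (abs_add_le _ _).trans (by gcongr)
  have hDk : ∀ k, y k = 2 * dv s z k - D k := by
    intro k
    rw [hD, Dsp_apply]; ring
  have hdv : ∀ k, |dv s z k| ≤ 2 * (C0 * R * G) + (6 * C0 + 1) * R := by
    intro k
    fin_cases k
    · exact (abs_c0_le θ _).trans (by linarith)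
    · exact (abs_c1_le θ _).trans (by linarith)
  have hy : ‖y‖ ≤ 8 * (C0 * R * G) + (24 * C0 + 4) * R + 2 * ‖D‖ := by
    refine (norm_le_add y).trans ?_
    have h0 : |y 0| ≤ 2 * |dv s z 0| + ‖D‖ := by
      rw [hDk 0]
      refine (abs_sub _ _).trans ?_
      rw [abs_mul, abs_two]
      gcongr
      exact abs_apply_le D 0
    have h1 : |y 1| ≤ 2 * |dv s z 1| + ‖D‖ := by
      rw [hDk 1]
      refine (abs_sub _ _).trans ?_
      rw [abs_mul, abs_two]
      gcongr
      exact abs_apply_le D 1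
    linarith [hdv 0, hdv 1]
  have hfny : fn θ (fun k => y k) - 2 * (b * L - v * (R * T)) =
      2 * fn θ (dv s (z - pt θ b L R T)) - 2 * (R * T * (fn θ s - v)) - fn θ (fun k => D k) := by
    have e : fn θ (fun k => y k) = 2 * fn θ (dv s z) - fn θ (fun k => D k) := by
      unfold fn
      simp only []
      rw [hDk 0, hDk 1]; ring
    rw [e1, fn_sub, g1, e]
    ring
  have hfnyb : |fn θ (fun k => y k) - 2 * (b * L - v * (R * T))| ≤ 2 * (p * L * G) + 2 * C0 * (p * L) + 2 * ‖D‖ := by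
    rw [hfny]
    have h1 : |R * T * (fn θ s - v)| ≤ C0 * (p * L) := by
      rw [abs_mul, abs_mul, abs_of_pos hR0]
      calc R * |(T : ℝ)| * |fn θ s - v| ≤ R * C0 * (p / L) := by gcongr
        _ = C0 * (p * L) := by rw [hR]; field_simp
    have h2 : |fn θ (fun k => D k)| ≤ 2 * ‖D‖ := by
      refine (abs_fn_le θ _).trans ?_
      linarith [abs_apply_le D 0, abs_apply_le D 1]
    calc |2 * fn θ (dv s (z - pt θ b L R T)) - 2 * (R * T * (fn θ s - v)) - fn θ (fun k => D k)| ≤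
        |2 * fn θ (dv s (z - pt θ b L R T))| + |2 * (R * T * (fn θ s - v))| + |fn θ (fun k => D k)| :=
          (abs_sub _ _).trans (by gcongr; exact abs_sub _ _)
      _ ≤ 2 * (p * L * G) + 2 * (C0 * (p * L)) + 2 * ‖D‖ := by
          rw [abs_mul, abs_mul 2 (R * T * (fn θ s - v)), abs_two]
          gcongr
      _ = _ := by ring
  set Λ := L * j with hΛ
  have hΛ0 : 0 < Λ := by positivity
  have hDL : ‖D‖ / L = j * (‖D‖ / Λ) := by rw [hΛ]; field_simp
  set X := ‖D‖ / Λ with hX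
  have hX0 : 0 ≤ X := by positivity
  have b1 : |fn θ (fun k => y k) - 2 * (b * L - v * (R * T))| / (p * L) ≤ 2 * G + 2 * C0 + 2 * (j * X) := by
    rw [div_le_iff₀ hpL0]
    refine hfnyb.trans ?_
    have h3 : ‖D‖ ≤ j * X * (p * L) := by
      have h4 : ‖D‖ = j * X * (1 * L) := by rw [← hDL]; field_simp
      rw [h4]
      gcongr
    calc 2 * (p * L * G) + 2 * C0 * (p * L) + 2 * ‖D‖ ≤ 2 * (p * L * G) + 2 * C0 * (p * L) + 2 * (j * X * (p * L)) := by gcongr
      _ = _ := by ring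
  have b2 : ‖y‖ / L ^ 2 ≤ 8 * (C0 * G) + (24 * C0 + 4) + 2 * (j * X) := by
    rw [← hR, div_le_iff₀ hR0]
    refine hy.trans ?_
    have h3 : ‖D‖ ≤ j * X * R := by
      have h4 : ‖D‖ = j * X * (L * 1) := by rw [← hDL]; field_simp
      rw [h4, hR, sq]
      gcongr
    calc 8 * (C0 * R * G) + (24 * C0 + 4) * R + 2 * ‖D‖ ≤ 8 * (C0 * R * G) + (24 * C0 + 4) * R + 2 * (j * X * R) := by gcongr
      _ = _ := by ring
  unfold plw
  have hjX : 0 ≤ j * X := by positivity
  have b3 : 1 + |fn θ (fun k => y k) - 2 * (b * L - v * (R * T))| / (p * L) + ‖y‖ / L ^ 2 ≤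
      10 * (C0 * G) + (26 * C0 + 5) + 4 * (j * X) := by nlinarith
  refine b3.trans ?_
  exact fin_aux hC hj1 hX0 hG0

end Vale.Agent.P076.H223
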