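import Vale.Agent.P076.H223.Plate

/-! # P076 / H223 : energies of tubes in a plate (2) -/

open MeasureTheory Complex Set FourierTransform Vale.Agent.P122.C2 Vale.Agent.P122.AN
open scoped ENNReal NNReal ContDiff

set_option linter.all false

namespace Vale.Agent.P076.H223

open Vale.Agent.P122.R301 (ec norm_ec enorm_ec ec_add ec_zero ec_neg continuous_ec)
open ASM (lp)

theorem sum_w {C0 : ℝ} (hC : 1 ≤ C0) : ∃ C : ℝ, 0 ≤ C ∧ ∀ (K n M : ℕ) (p θ b d : ℝ) (τ : Z2) (T : ℤ) (U : Finset Nd),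
    7 ≤ M → 1 ≤ p → 1 ≤ d → p ≤ 2 ^ (K * n) → (∀ S ∈ U, S.τ = τ ∧ S.T = T ∧ |fn θ (fun k => (S.o k : ℝ)) - b| ≤ p ∧
      ∀ k, |(S.o k : ℝ)| ≤ C0 * d * 2 ^ (K * n)) → ∀ z,
    ∑ S ∈ U, wN M n K S z ≤ ENNReal.ofReal C * wg 4 θ (d * 2 ^ (2 * K * n)) (p * 2 ^ (K * n)) (2 ^ (2 * K * n)) (slp n K τ)
      (z - pt θ b (2 ^ (K * n)) (2 ^ (2 * K * n)) T) := by
  obtain ⟨C, hCC, h⟩ := Vale.Agent.P122.W840.stWS 4 (2 * C0 + 1) (by linarith)
  refine ⟨C, hCC, ?_⟩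
  intro K n M p θ b d τ T U hM hp hd hpL hU z
  have hL : (1:ℝ) ≤ 2 ^ (K * n) := one_le_pow₀ (by norm_num)
  have hL0 : (0:ℝ) < 2 ^ (K * n) := by positivity
  have hR0 : (0:ℝ) < 2 ^ (2 * K * n) := by positivity
  have hLR0 : (2:ℝ) ^ (K * n) ≤ 2 ^ (2 * K * n) := by
    apply pow_le_pow_right₀ (by norm_num)
    rw [mul_assoc]; omega
  have hLR : (2:ℝ) ^ (K * n) ≤ d * 2 ^ (2 * K * n) := hLR0.trans (le_mul_of_one_le_left hR0.le hd)
  have hRL : (2:ℝ) ^ (2 * K * n) = 2 ^ (K * n) * 2 ^ (K * n) := by rw [pow_RL, sq]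
  have hinj : Set.InjOn Nd.o (U : Set Nd) := by
    intro S hS S' hS' e
    have a := hU S hS
    have b := hU S' hS'
    ext1
    · rw [a.1, b.1]
    · exact e
    · rw [a.2.1, b.2.1]
  have hdR : 0 < d * 2 ^ (2 * K * n) := by positivity
  have key := h (2 ^ (K * n)) (2 ^ (2 * K * n)) θ (d * 2 ^ (2 * K * n)) (p * 2 ^ (K * n)) (slp n K τ) (slp n K τ) (U.image Nd.o)
    (2 ^ (2 * K * n) * (T : ℝ)) (pt θ b (2 ^ (K * n)) (2 ^ (2 * K * n)) T) hL0 hR0 hLR (by nlinarith) (by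
      have : fw θ (fun i => slp n K τ i - slp n K τ i) = 0 := by unfold fw; simp
      rw [this, abs_zero, zero_mul]
      positivity) (by
      have : fn θ (fun i => slp n K τ i - slp n K τ i) = 0 := by unfold fn; simp
      rw [this, abs_zero, zero_mul]
      positivity) (by
      intro o ho
      obtain ⟨S, hS, rfl⟩ := Finset.mem_image.1 ho
      obtain ⟨-, -, h3, h4⟩ := hU S hS
      have sc := Real.sin_sq_add_cos_sq θ
      have e1 : fn θ (dv (slp n K τ) (!₂[(2:ℝ) ^ (K * n) * S.o 0, (2:ℝ) ^ (K * n) * S.o 1, 2 ^ (2 * K * n) * (T : ℝ)] -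
          pt θ b (2 ^ (K * n)) (2 ^ (2 * K * n)) T)) = 2 ^ (K * n) * (fn θ (fun k => (S.o k : ℝ)) - b) := by
        unfold fn dv pt
        simp
        linear_combination (-b * 2 ^ (K * n)) * sc
      have e2 : fw θ (dv (slp n K τ) (!₂[(2:ℝ) ^ (K * n) * S.o 0, (2:ℝ) ^ (K * n) * S.o 1, 2 ^ (2 * K * n) * (T : ℝ)] -
          pt θ b (2 ^ (K * n)) (2 ^ (2 * K * n)) T)) = 2 ^ (K * n) * fw θ (fun k => (S.o k : ℝ)) := by
        unfold fw dv pt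
        simp
        ring
      have e3 : (!₂[(2:ℝ) ^ (K * n) * S.o 0, (2:ℝ) ^ (K * n) * S.o 1, 2 ^ (2 * K * n) * (T : ℝ)] -
          pt θ b (2 ^ (K * n)) (2 ^ (2 * K * n)) T) 2 = 0 := by
        unfold pt
        simp
      unfold gau
      rw [e1, e2, e3]
      have hfw : |fw θ (fun k => (S.o k : ℝ))| ≤ 2 * C0 * d * 2 ^ (K * n) := by
        refine (abs_fw_le θ _).trans ?_
        linarith [h4 0, h4 1]
      have t1 : |2 ^ (K * n) * fw θ (fun k => (S.o k : ℝ))| / (d * 2 ^ (2 * K * n)) ≤ 2 * C0 := by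
        rw [abs_mul, abs_of_pos hL0, hRL, div_le_iff₀ (by positivity)]
        calc 2 ^ (K * n) * |fw θ (fun k => (S.o k : ℝ))| ≤ 2 ^ (K * n) * (2 * C0 * d * 2 ^ (K * n)) := by gcongr
          _ = _ := by ring
      have t2 : |2 ^ (K * n) * (fn θ (fun k => (S.o k : ℝ)) - b)| / (p * 2 ^ (K * n)) ≤ 1 := by
        rw [abs_mul, abs_of_pos hL0, div_le_one (by positivity)]
        calc 2 ^ (K * n) * |fn θ (fun k => (S.o k : ℝ)) - b| ≤ 2 ^ (K * n) * p := by gcongr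
          _ = _ := by ring
      rw [abs_zero, zero_div]
      linarith) z
  refine le_trans ?_ key
  rw [Finset.sum_image hinj]
  refine Finset.sum_le_sum fun S hS => ?_
  obtain ⟨h1, h2, -, -⟩ := hU S hS
  unfold wN bp
  rw [h1, h2]
  exact wg_anti hL0 hL0 hR0 (by omega) _

theorem I3_lt : ∫⁻ v : E2, ENNReal.ofReal (((1 + ‖v‖) ^ 3)⁻¹) < ⊤ := by
  have h := integrable_one_add_norm (E := E2) (μ := volume) (r := 3) (by simp; norm_num)
  have h2 := h.lintegral_lt_top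
  refine lt_of_le_of_lt (le_of_eq ?_) h2
  refine lintegral_congr fun v => ?_
  congr 1
  rw [Real.rpow_neg (by positivity)]
  norm_cast

theorem lint_scale {Λ : ℝ} (hΛ : 0 < Λ) (c : E2) :
    ∫⁻ v : E2, ENNReal.ofReal (((1 + ‖(2 : ℝ) • v + c‖ / Λ) ^ 3)⁻¹) =
      ENNReal.ofReal (Λ ^ 2 / 4) * ∫⁻ v : E2, ENNReal.ofReal (((1 + ‖v‖) ^ 3)⁻¹) := by
  have hr : (2 / Λ : ℝ) ≠ 0 := by positivity
  have he : MeasurableEmbedding (fun v : E2 => (2 / Λ : ℝ) • v) := (Homeomorph.smulOfNeZero (2 / Λ : ℝ) hr).measurableEmbedding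
  have h1 : ∀ v : E2, ENNReal.ofReal (((1 + ‖(2 : ℝ) • v + c‖ / Λ) ^ 3)⁻¹) =
      (fun w : E2 => ENNReal.ofReal (((1 + ‖(2 / Λ : ℝ) • w‖) ^ 3)⁻¹)) (v + (1 / 2 : ℝ) • c) := by
    intro v
    simp only
    congr 4
    rw [norm_smul, Real.norm_of_nonneg (by positivity)]
    have : (2 : ℝ) • v + c = (2 : ℝ) • (v + (1 / 2 : ℝ) • c) := by
      rw [smul_add, smul_smul]; norm_num
    rw [this, norm_smul, Real.norm_of_nonneg (by norm_num : (0:ℝ) ≤ 2)]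
    ring
  simp_rw [h1]
  rw [lintegral_add_right_eq_self (fun w : E2 => ENNReal.ofReal (((1 + ‖(2 / Λ : ℝ) • w‖) ^ 3)⁻¹))]
  rw [← he.lintegral_map (fun w : E2 => ENNReal.ofReal (((1 + ‖w‖) ^ 3)⁻¹)), Measure.map_addHaar_smul volume hr,
    lintegral_smul_measure, smul_eq_mul]
  congr 2
  rw [finrank_euclideanSpace, Fintype.card_fin, abs_of_pos (by positivity)]
  field_simp
  norm_num

theorem time_int : ∃ C : ℝ, 0 ≤ C ∧ ∀ R : ℝ, 0 < R →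
    ∫⁻ u : ℝ, ‖ph0 (u / R)‖ₑ ^ 2 * ENNReal.ofReal ((1 + |2 * u| / R) ^ 8) ≤ ENNReal.ofReal (C * R) := by
  obtain ⟨C1, hC1, h1⟩ := ph0_decay 5
  have hI := (integrable_one_add_norm (E := ℝ) (μ := volume) (r := 2) (by simp)).lintegral_lt_top
  set I := ∫⁻ s : ℝ, ENNReal.ofReal ((1 + ‖s‖) ^ (-(2:ℝ))) with hId
  refine ⟨C1 ^ 2 * 2 ^ 8 * I.toReal, by positivity, ?_⟩
  intro R hR
  have he : MeasurableEmbedding (fun u : ℝ => R⁻¹ * u) := (Homeomorph.mulLeft₀ R⁻¹ (inv_ne_zero hR.ne')).measurableEmbedding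
  have e1 : ∀ u : ℝ, ‖ph0 (u / R)‖ₑ ^ 2 * ENNReal.ofReal ((1 + |2 * u| / R) ^ 8) =
      (fun s : ℝ => ‖ph0 s‖ₑ ^ 2 * ENNReal.ofReal ((1 + |2 * s|) ^ 8)) (R⁻¹ * u) := by
    intro u
    simp only
    have : R⁻¹ * u = u / R := by ring
    rw [this]
    congr 4
    rw [abs_mul, abs_mul, abs_div, abs_of_pos hR]; ring
  simp_rw [e1]
  rw [← he.lintegral_map (fun s : ℝ => ‖ph0 s‖ₑ ^ 2 * ENNReal.ofReal ((1 + |2 * s|) ^ 8)), Real.map_volume_mul_left (inv_ne_zero hR.ne'),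
    lintegral_smul_measure, smul_eq_mul, inv_inv, abs_of_pos hR]
  have e2 : ∫⁻ s : ℝ, ‖ph0 s‖ₑ ^ 2 * ENNReal.ofReal ((1 + |2 * s|) ^ 8) ≤ ENNReal.ofReal (C1 ^ 2 * 2 ^ 8) * I := by
    rw [hId, ← lintegral_const_mul _ (by fun_prop)]
    refine lintegral_mono fun s => ?_
    rw [← ofReal_norm, ← ENNReal.ofReal_pow (norm_nonneg _), ← ENNReal.ofReal_mul (by positivity),
      ← ENNReal.ofReal_mul (by positivity)]
    apply ENNReal.ofReal_le_ofReal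
    have a1 := h1 s
    rw [Real.rpow_neg (by positivity), Real.norm_eq_abs]
    have a2 : (1 + |s|) ^ (2:ℝ) = (1 + |s|) ^ 2 := by norm_cast
    rw [a2]
    have hs : 0 < 1 + |s| := by positivity
    calc ‖ph0 s‖ ^ 2 * (1 + |2 * s|) ^ 8 ≤ (C1 * ((1 + |s|) ^ 5)⁻¹) ^ 2 * (2 * (1 + |s|)) ^ 8 := by
          gcongr
          rw [abs_mul, abs_two]; linarith
      _ = C1 ^ 2 * 2 ^ 8 * ((1 + |s|) ^ 2)⁻¹ := by
          field_simp
  calc ENNReal.ofReal R * ∫⁻ s : ℝ, ‖ph0 s‖ₑ ^ 2 * ENNReal.ofReal ((1 + |2 * s|) ^ 8) ≤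
      ENNReal.ofReal R * (ENNReal.ofReal (C1 ^ 2 * 2 ^ 8) * I) := by gcongr
    _ = ENNReal.ofReal (C1 ^ 2 * 2 ^ 8 * I.toReal * R) := by
        rw [ENNReal.ofReal_mul (p := C1 ^ 2 * 2 ^ 8 * I.toReal) (by positivity),
          ENNReal.ofReal_mul (p := C1 ^ 2 * 2 ^ 8) (by positivity), ENNReal.ofReal_toReal hI.ne]
        ring

end Vale.Agent.P076.H223
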