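import Vale.Agent.P076.H223.Plate2

/-! # P076 / H223 : energies of tubes in a plate (3) -/

open MeasureTheory Complex Set FourierTransform Vale.Agent.P122.C2 Vale.Agent.P122.AN
open scoped ENNReal NNReal ContDiff

set_option linter.all false

namespace Vale.Agent.P076.H223

open Vale.Agent.P122.R301 (ec norm_ec enorm_ec ec_add ec_zero ec_neg continuous_ec)
open ASM (lp)

/-- the constant part of the displacement -/
noncomputable def cst (L : ℝ) (a τ : Z2) (u : ℝ) (y : E2) : E2 :=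
  (2 * u) • lp a - y - (2 * (2 * u)) • ((1 / 2 : ℝ) • (sl L τ + lp a))

theorem Dsp_jn (L : ℝ) (a τ : Z2) (v : E2) (u : ℝ) (y : E2) :
    Dsp L a τ (jn v u) y = (2 : ℝ) • v + cst L a τ u y := by
  unfold Dsp cst
  rw [up_jn, jn_2]
  abel

theorem Dsp_meas (L : ℝ) (a τ : Z2) : Measurable (fun q : E3 × E2 => Dsp L a τ q.1 q.2) := by
  unfold Dsp
  have h1 : Measurable (fun q : E3 × E2 => up q.1) := up_meas.comp measurable_fst
  have h2 : Measurable (fun q : E3 × E2 => q.1 2) := by fun_prop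
  fun_prop

theorem plw_meas (p L θ β : ℝ) : Measurable (plw p L θ β) := by
  unfold plw fn
  fun_prop

/-- the time weight -/
noncomputable def jw (L u : ℝ) : ℝ := 1 + |2 * u| / L ^ 2

theorem jw_pos (L u : ℝ) : 0 < jw L u := by unfold jw; positivity

theorem jw_meas (L : ℝ) : Measurable (jw L) := by unfold jw; fun_prop

/-- the kernel -/
noncomputable def Phi (L : ℝ) (a τ : Z2) (z : E3) (y : E2) : ℝ≥0∞ :=
  ‖ph0 (z 2 / L ^ 2)‖ₑ ^ 2 * ENNReal.ofReal (jw L (z 2) ^ 6 / L ^ 2) *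
      ENNReal.ofReal (((1 + ‖Dsp L a τ z y‖ / (L * jw L (z 2))) ^ 3)⁻¹)

theorem ph_meas (L : ℝ) : Measurable (fun u : ℝ => ‖ph0 (u / L ^ 2)‖ₑ ^ 2) := by
  have : Measurable (fun u : ℝ => ph0 (u / L ^ 2)) := ph0_cont.measurable.comp (by fun_prop)
  exact this.enorm.pow_const 2

theorem Phi_meas (L : ℝ) (a τ : Z2) : Measurable (fun q : E3 × E2 => Phi L a τ q.1 q.2) := by
  unfold Phi
  have h6 : Measurable (fun q : E3 × E2 => q.1 2) := by fun_prop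
  have h3 : Measurable (fun q : E3 × E2 => ‖ph0 (q.1 2 / L ^ 2)‖ₑ ^ 2) := (ph_meas L).comp h6
  have h4 : Measurable (fun q : E3 × E2 => ‖Dsp L a τ q.1 q.2‖) := (Dsp_meas L a τ).norm
  have h5 : Measurable (fun q : E3 × E2 => jw L (q.1 2)) := (jw_meas L).comp h6
  have h7 : Measurable (fun q : E3 × E2 => ENNReal.ofReal (jw L (q.1 2) ^ 6 / L ^ 2)) :=
    ((h5.pow_const 6).div_const _).ennreal_ofReal
  have h8 : Measurable (fun q : E3 × E2 => ENNReal.ofReal (((1 + ‖Dsp L a τ q.1 q.2‖ / (L * jw L (q.1 2))) ^ 3)⁻¹)) :=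
    (((h4.div (h5.const_mul L)).const_add 1).pow_const 3).inv.ennreal_ofReal
  exact (h3.mul h7).mul h8

theorem Phi_meas1 (L : ℝ) (a τ : Z2) (y : E2) : Measurable (fun z : E3 => Phi L a τ z y) := by
  have h : Measurable (fun z : E3 => (z, y)) := measurable_id.prodMk measurable_const
  exact Measurable.comp (g := fun q : E3 × E2 => Phi L a τ q.1 q.2) (f := fun z : E3 => (z, y)) (Phi_meas L a τ) h

theorem e1_aux (L : ℝ) (a τ : Z2) (y : E2) (hL : 0 < L) (u : ℝ) :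
    ∫⁻ v : E2, Phi L a τ (jn v u) y = (ENNReal.ofReal (1 / 4) * ∫⁻ v : E2, ENNReal.ofReal (((1 + ‖v‖) ^ 3)⁻¹)) *
      (‖ph0 (u / L ^ 2)‖ₑ ^ 2 * ENNReal.ofReal ((1 + |2 * u| / L ^ 2) ^ 8)) := by
  unfold Phi
  simp only [jn_2, Dsp_jn]
  have hj := jw_pos L u
  rw [lintegral_const_mul' _ _ (ENNReal.mul_ne_top (ENNReal.pow_ne_top enorm_ne_top) ENNReal.ofReal_ne_top),
    lint_scale (by positivity)]
  have e : jw L u ^ 6 / L ^ 2 * ((L * jw L u) ^ 2 / 4) = 1 / 4 * jw L u ^ 8 := by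
    field_simp
  have e' : ENNReal.ofReal (jw L u ^ 6 / L ^ 2) * ENNReal.ofReal ((L * jw L u) ^ 2 / 4) =
      ENNReal.ofReal (1 / 4) * ENNReal.ofReal (jw L u ^ 8) := by
    rw [← ENNReal.ofReal_mul (by positivity), e, ENNReal.ofReal_mul (by norm_num)]
  change ‖ph0 (u / L ^ 2)‖ₑ ^ 2 * ENNReal.ofReal (jw L u ^ 6 / L ^ 2) * (ENNReal.ofReal ((L * jw L u) ^ 2 / 4) * _) =
    ENNReal.ofReal (1 / 4) * _ * (‖ph0 (u / L ^ 2)‖ₑ ^ 2 * ENNReal.ofReal (jw L u ^ 8))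
  rw [show ∀ A B C D : ℝ≥0∞, A * B * (C * D) = A * (B * C) * D by intros; ring, e']
  ring

/-- integral in `z` for fixed `y` -/
theorem int_z : ∃ C : ℝ, 0 ≤ C ∧ ∀ (L : ℝ) (a τ : Z2) (y : E2), 0 < L →
    ∫⁻ z : E3, Phi L a τ z y ≤ ENNReal.ofReal (C * L ^ 2) := by
  obtain ⟨C1, hC1, h1⟩ := time_int
  have hI := I3_lt
  refine ⟨C1 * ((∫⁻ v : E2, ENNReal.ofReal (((1 + ‖v‖) ^ 3)⁻¹)).toReal / 4), by positivity, ?_⟩
  intro L a τ y hL
  rw [lint_jn (Phi_meas1 L a τ y)]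
  simp only [e1_aux L a τ y hL]
  generalize (∫⁻ v : E2, ENNReal.ofReal (((1 + ‖v‖) ^ 3)⁻¹)) = I at hI ⊢
  rw [lintegral_const_mul' _ _ (ENNReal.mul_ne_top ENNReal.ofReal_ne_top hI.ne)]
  calc ENNReal.ofReal (1 / 4) * I * ∫⁻ u : ℝ, ‖ph0 (u / L ^ 2)‖ₑ ^ 2 * ENNReal.ofReal ((1 + |2 * u| / L ^ 2) ^ 8) ≤
      ENNReal.ofReal (1 / 4) * I * ENNReal.ofReal (C1 * L ^ 2) :=
        mul_le_mul_right (h1 (L ^ 2) (by positivity)) _
    _ = _ := by
        rw [show C1 * (I.toReal / 4) * L ^ 2 = (1 / 4) * I.toReal * (C1 * L ^ 2) by ring,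
          ENNReal.ofReal_mul (p := 1 / 4 * I.toReal) (by positivity), ENNReal.ofReal_mul (p := 1 / 4) (by norm_num),
          ENNReal.ofReal_toReal hI.ne]

/-- comparison of the weights -/
theorem wt_real {A j X G W : ℝ} (hA : 0 ≤ A) (hj : 0 < j) (hX : 0 ≤ X) (hG : 0 ≤ G) (hW : 0 < W)
    (h : W ≤ A * (j * (1 + X)) * (1 + G)) :
    ((1 + X) ^ 7)⁻¹ * ((1 + G) ^ 4)⁻¹ ≤ A ^ 4 * j ^ 4 * ((1 + X) ^ 3)⁻¹ * (W ^ 4)⁻¹ := by
  have h4 : W ^ 4 ≤ (A * (j * (1 + X)) * (1 + G)) ^ 4 := pow_le_pow_left₀ hW.le h 4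
  have hX1 : 0 < 1 + X := by positivity
  have hG1 : 0 < 1 + G := by positivity
  have e : A ^ 4 * j ^ 4 * ((1 + X) ^ 3)⁻¹ * (W ^ 4)⁻¹ =
      ((1 + X) ^ 7)⁻¹ * ((1 + G) ^ 4)⁻¹ * ((A * (j * (1 + X)) * (1 + G)) ^ 4 / W ^ 4) := by
    field_simp
  rw [e]
  have h5 : 1 ≤ (A * (j * (1 + X)) * (1 + G)) ^ 4 / W ^ 4 := by
    rw [one_le_div (by positivity)]; exact h4
  exact le_mul_of_one_le_right (by positivity) h5

theorem wy_meas {G : E2 → ℂ} (hi : Integrable G) (p L θ β : ℝ) :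
    Measurable (fun y : E2 => ‖𝓕⁻ G y‖ₑ ^ 2 * ENNReal.ofReal (((plw p L θ β y) ^ 4)⁻¹)) := by
  have h3 : Measurable (fun y : E2 => ‖𝓕⁻ G y‖ₑ ^ 2) := by
    have h4 : (𝓕⁻ G : E2 → ℂ) = fun x => 𝓕 G (-x) := by
      ext x
      exact Real.fourierInv_eq_fourier_neg _ _
    rw [h4]
    exact ((Vale.Agent.P122.FI.continuous_four hi).comp continuous_neg).measurable.enorm.pow_const 2
  exact h3.mul ((plw_meas p L θ β).pow_const 4).inv.ennreal_ofReal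

end Vale.Agent.P076.H223
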