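import Vale.Agent.P076.H223.Plate3

/-! # P076 / H223 : energies of tubes in a plate (4) -/

open MeasureTheory Complex Set FourierTransform Vale.Agent.P122.C2 Vale.Agent.P122.AN
open scoped ENNReal NNReal ContDiff

set_option linter.all false

namespace Vale.Agent.P076.H223

open Vale.Agent.P122.R301 (ec norm_ec enorm_ec ec_add ec_zero ec_neg continuous_ec)
open ASM (lp)

theorem wE7 (L : ℝ) (a τ : Z2) (hL : 0 < L) (z : E3) (y : E2) :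
    H819.wE 7 (L * jw L (z 2)) ((2 : ℝ) • up z + (2 * z 2) • lp a - y - (2 * (2 * z 2)) • ((1 / 2 : ℝ) • (sl L τ + lp a))) =
      ((1 + ‖Dsp L a τ z y‖ / (L * jw L (z 2))) ^ 7)⁻¹ := by
  have hj := jw_pos L (z 2)
  unfold H819.wE Dsp
  rw [Real.rpow_neg (by positivity)]
  norm_cast

theorem sq_g3 {L : ℝ} (hL : 0 < L) {a : Z2} {G : E2 → ℂ} (hG : ASM.Bd 2 G) (z : E3) :
    ‖𝓕⁻ (g3 (L ^ 2) a G) z‖ₑ ^ 2 = ENNReal.ofReal 16 * ‖ph0 (z 2 / L ^ 2)‖ₑ ^ 2 *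
        ‖evo G ((2 : ℝ) • up z + (2 * z 2) • lp a) (2 * z 2) 0‖ₑ ^ 2 := by
  obtain ⟨hi, h2⟩ := bd_int hG
  rw [four_g3 (by positivity) hi hG.meas z, enorm_mul, enorm_mul, enorm_mul, enorm_ec, mul_one, mul_pow, mul_pow]
  congr 2
  rw [← ofReal_norm, ← ENNReal.ofReal_pow (norm_nonneg _)]
  norm_num

/-- the weights under the kernel -/
theorem wts {C' L R1 p θ b v : ℝ} {a τ : Z2} {T : ℤ} (hC : 1 ≤ C') (hL : 1 ≤ L) (hR1 : 0 < R1)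
    (hR1' : R1 ≤ C' * L ^ 2) (hp : 1 ≤ p) (hpL : p ≤ L)
    (hτ : ∀ k, 0 ≤ (τ k : ℝ) ∧ (τ k : ℝ) ≤ L) (hv : |fn θ (fun k => (τ k : ℝ) / L) - v| ≤ p / L) (hT : |(T : ℝ)| ≤ C')
    (hb : |b| ≤ (2 * C' + 1) * L) (z : E3) (y : E2) :
    ENNReal.ofReal (H819.wE 7 (L * jw L (z 2))
        ((2 : ℝ) • up z + (2 * z 2) • lp a - y - (2 * (2 * z 2)) • ((1 / 2 : ℝ) • (sl L τ + lp a)))) *
          wg 4 θ R1 (p * L) (L ^ 2) (fun k => (τ k : ℝ) / L) (z - pt θ b L (L ^ 2) T) ≤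
        ENNReal.ofReal ((60 * C') ^ 4 * jw L (z 2) ^ 4) *
          ENNReal.ofReal (((1 + ‖Dsp L a τ z y‖ / (L * jw L (z 2))) ^ 3)⁻¹) *
          ENNReal.ofReal (((plw p L θ (2 * (b * L - v * (L ^ 2 * T))) y) ^ 4)⁻¹) := by
  have hL0 : 0 < L := by linarith
  have hp0 : 0 < p := by linarith
  have hj := jw_pos L (z 2)
  rw [wE7 L a τ hL0 z y]
  have hgeo := geo (a := a) (θ := θ) hC hL rfl hR1 hR1' hp hpL hτ hv hT hb z y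
  have hgau0 : 0 ≤ gau θ R1 (p * L) (L ^ 2) (fun k => (τ k : ℝ) / L) (z - pt θ b L (L ^ 2) T) :=
    gau_nonneg hR1 (by positivity) (by positivity) _
  unfold wg
  rw [← ENNReal.ofReal_mul (by positivity), ← ENNReal.ofReal_mul (by positivity), ← ENNReal.ofReal_mul (by positivity)]
  apply ENNReal.ofReal_le_ofReal
  refine wt_real (by positivity) hj (by positivity) hgau0 ?_ hgeo
  unfold plw; positivity

theorem ptw (c0 : ℝ) : ∃ Ck : ℝ, 0 ≤ Ck ∧ ∀ (C' L R1 p θ b v : ℝ) (a τ : Z2) (T : ℤ) (G : E2 → ℂ), 1 ≤ C' → 1 ≤ L →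
    ASM.Bd 2 G → (∀ η, G η ≠ 0 → ∀ i, |η i - ((1 / 2 : ℝ) • (sl L τ + lp a)) i| ≤ c0 / 2 / L) → 0 < R1 → R1 ≤ C' * L ^ 2 →
    1 ≤ p → p ≤ L → (∀ k, 0 ≤ (τ k : ℝ) ∧ (τ k : ℝ) ≤ L) → |fn θ (fun k => (τ k : ℝ) / L) - v| ≤ p / L → |(T : ℝ)| ≤ C' →
    |b| ≤ (2 * C' + 1) * L → ∀ z,
    ‖𝓕⁻ (g3 (L ^ 2) a G) z‖ₑ ^ 2 * wg 4 θ R1 (p * L) (L ^ 2) (fun k => (τ k : ℝ) / L) (z - pt θ b L (L ^ 2) T) ≤
      ENNReal.ofReal (Ck * C' ^ 4) *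
        ∫⁻ y, Phi L a τ z y * (‖𝓕⁻ G y‖ₑ ^ 2 * ENNReal.ofReal (((plw p L θ (2 * (b * L - v * (L ^ 2 * T))) y) ^ 4)⁻¹)) := by
  obtain ⟨Ck, hCk, hk⟩ := H819.kernel_evo_all 7 (c0 / 2)
  refine ⟨16 * Ck * 60 ^ 4, by positivity, ?_⟩
  intro C' L R1 p θ b v a τ T G hC hL hG hcell hR1 hR1' hp hpL hτ hv hT hb z
  have hL0 : 0 < L := by linarith
  obtain ⟨hi, h2⟩ := bd_int hG
  have hj := jw_pos L (z 2)
  have b2 := hk L ((1 / 2 : ℝ) • (sl L τ + lp a)) G hL0 hi hcell ((2 : ℝ) • up z + (2 * z 2) • lp a) (2 * z 2) 0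
  simp only [sub_zero] at b2
  have hΛ : H819.Lam L (2 * z 2) = L * jw L (z 2) := rfl
  rw [hΛ] at b2
  change _ ≤ ENNReal.ofReal (Ck * (jw L (z 2) ^ 2 / L ^ 2)) * _ at b2
  have hW : wg 4 θ R1 (p * L) (L ^ 2) (fun k => (τ k : ℝ) / L) (z - pt θ b L (L ^ 2) T) ≠ ⊤ := by
    unfold wg
    exact ENNReal.ofReal_ne_top
  have b4 := fun y => wts (a := a) (τ := τ) hC hL hR1 hR1' hp hpL hτ hv hT hb z y
  generalize hWd : wg 4 θ R1 (p * L) (L ^ 2) (fun k => (τ k : ℝ) / L) (z - pt θ b L (L ^ 2) T) = W at *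
  have c1 : ‖𝓕⁻ (g3 (L ^ 2) a G) z‖ₑ ^ 2 * W ≤ (ENNReal.ofReal 16 * ‖ph0 (z 2 / L ^ 2)‖ₑ ^ 2 *
      ENNReal.ofReal (Ck * (jw L (z 2) ^ 2 / L ^ 2))) *
      ∫⁻ y : E2, ‖evo G y 0 0‖ₑ ^ 2 * ENNReal.ofReal (H819.wE 7 (L * jw L (z 2))
          ((2 : ℝ) • up z + (2 * z 2) • lp a - y - (2 * (2 * z 2)) • ((1 / 2 : ℝ) • (sl L τ + lp a)))) * W := by
    rw [sq_g3 hL0 hG z, lintegral_mul_const' _ _ hW]
    have e0 : ∀ A B C D : ℝ≥0∞, A * B * (C * D) = A * ((B * C) * D) := by intros; ring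
    rw [e0, mul_assoc]
    exact mul_le_mul_right (mul_le_mul_left b2 W) _
  refine c1.trans ?_
  have c2 : ∫⁻ y : E2, ‖evo G y 0 0‖ₑ ^ 2 * ENNReal.ofReal (H819.wE 7 (L * jw L (z 2))
          ((2 : ℝ) • up z + (2 * z 2) • lp a - y - (2 * (2 * z 2)) • ((1 / 2 : ℝ) • (sl L τ + lp a)))) * W ≤
      ENNReal.ofReal ((60 * C') ^ 4 * jw L (z 2) ^ 4) * ∫⁻ y : E2,
        ENNReal.ofReal (((1 + ‖Dsp L a τ z y‖ / (L * jw L (z 2))) ^ 3)⁻¹) *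
          (‖𝓕⁻ G y‖ₑ ^ 2 * ENNReal.ofReal (((plw p L θ (2 * (b * L - v * (L ^ 2 * T))) y) ^ 4)⁻¹)) := by
    rw [← lintegral_const_mul' _ _ ENNReal.ofReal_ne_top]
    refine lintegral_mono fun y => ?_
    rw [mul_assoc, ← H819.fourierInv_eq_evo G y]
    refine (mul_le_mul_right (b4 y) _).trans (le_of_eq ?_)
    ring
  refine (mul_le_mul_right c2 _).trans (le_of_eq ?_)
  unfold Phi
  have e5 : ∀ y, ‖ph0 (z 2 / L ^ 2)‖ₑ ^ 2 * ENNReal.ofReal (jw L (z 2) ^ 6 / L ^ 2) *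
      ENNReal.ofReal (((1 + ‖Dsp L a τ z y‖ / (L * jw L (z 2))) ^ 3)⁻¹) *
      (‖𝓕⁻ G y‖ₑ ^ 2 * ENNReal.ofReal (((plw p L θ (2 * (b * L - v * (L ^ 2 * T))) y) ^ 4)⁻¹)) =
      (‖ph0 (z 2 / L ^ 2)‖ₑ ^ 2 * ENNReal.ofReal (jw L (z 2) ^ 6 / L ^ 2)) *
      (ENNReal.ofReal (((1 + ‖Dsp L a τ z y‖ / (L * jw L (z 2))) ^ 3)⁻¹) *
      (‖𝓕⁻ G y‖ₑ ^ 2 * ENNReal.ofReal (((plw p L θ (2 * (b * L - v * (L ^ 2 * T))) y) ^ 4)⁻¹))) := fun y => mul_assoc _ _ _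
  simp only [e5]
  rw [lintegral_const_mul' _ _ (ENNReal.mul_ne_top (ENNReal.pow_ne_top enorm_ne_top) ENNReal.ofReal_ne_top)]
  generalize (∫⁻ y : E2, ENNReal.ofReal (((1 + ‖Dsp L a τ z y‖ / (L * jw L (z 2))) ^ 3)⁻¹) *
      (‖𝓕⁻ G y‖ₑ ^ 2 * ENNReal.ofReal (((plw p L θ (2 * (b * L - v * (L ^ 2 * T))) y) ^ 4)⁻¹))) = J
  have e7 : ENNReal.ofReal 16 * ENNReal.ofReal (Ck * (jw L (z 2) ^ 2 / L ^ 2)) *
      ENNReal.ofReal ((60 * C') ^ 4 * jw L (z 2) ^ 4) =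
      ENNReal.ofReal (16 * Ck * 60 ^ 4 * C' ^ 4) * ENNReal.ofReal (jw L (z 2) ^ 6 / L ^ 2) := by
    rw [← ENNReal.ofReal_mul (by positivity), ← ENNReal.ofReal_mul (by positivity), ← ENNReal.ofReal_mul (by positivity)]
    congr 1
    field_simp
  calc _ = (ENNReal.ofReal 16 * ENNReal.ofReal (Ck * (jw L (z 2) ^ 2 / L ^ 2)) *
      ENNReal.ofReal ((60 * C') ^ 4 * jw L (z 2) ^ 4)) * ‖ph0 (z 2 / L ^ 2)‖ₑ ^ 2 * J := by ring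
    _ = _ := by rw [e7]; ring

end Vale.Agent.P076.H223
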