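import Vale.Agent.P076.H223.Plate4

/-! # P076 / H223 : energies of tubes in a plate (5) -/

open MeasureTheory Complex Set FourierTransform Vale.Agent.P122.C2 Vale.Agent.P122.AN
open scoped ENNReal NNReal ContDiff

set_option linter.all false

namespace Vale.Agent.P076.H223

open Vale.Agent.P122.R301 (ec norm_ec enorm_ec ec_add ec_zero ec_neg continuous_ec)
open ASM (lp)

theorem wN_meas (M n K : ℕ) (S : Nd) : Measurable (wN M n K S) := by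
  unfold wN
  exact (measurable_wg (θ := 0) (ρ1 := 2 ^ (K * n)) (ρ2 := 2 ^ (K * n)) (ρ3 := 2 ^ (2 * K * n)) (s := slp n K S.τ) M).comp
    (measurable_id.sub_const _)

theorem sum_am2 (M n K : ℕ) (U : Finset Nd) {F : E3 → ℂ} (hF : Measurable (fun z => ‖F z‖ₑ ^ 2)) :
    ∑ S ∈ U, am2 M n K S F = ENNReal.ofReal ((((2:ℝ) ^ (K * n)) ^ 4)⁻¹) * ∫⁻ z, ‖F z‖ₑ ^ 2 * ∑ S ∈ U, wN M n K S z := by
  have e4 : (2:ℝ) ^ (4 * K * n) = (2 ^ (K * n)) ^ 4 := by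
    rw [← pow_mul]; ring_nf
  simp only [am2, e4]
  rw [← Finset.mul_sum]
  congr 1
  have h := lintegral_finset_sum (μ := (volume : Measure E3)) U (f := fun S z => ‖F z‖ₑ ^ 2 * wN M n K S z)
    (fun S _ => hF.mul (wN_meas M n K S))
  rw [← h]
  refine lintegral_congr fun z => ?_
  rw [Finset.mul_sum]

theorem tonelli {L : ℝ} (a τ : Z2) {W : E2 → ℝ≥0∞} (hW : Measurable W) {Cz : ℝ}
    (hz : ∀ y, ∫⁻ z : E3, Phi L a τ z y ≤ ENNReal.ofReal (Cz * L ^ 2)) :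
    ∫⁻ z : E3, ∫⁻ y : E2, Phi L a τ z y * W y ≤ ENNReal.ofReal (Cz * L ^ 2) * ∫⁻ y, W y := by
  have m : Measurable (fun q : E3 × E2 => Phi L a τ q.1 q.2 * W q.2) := (Phi_meas L a τ).mul (hW.comp measurable_snd)
  rw [lintegral_lintegral_swap m.aemeasurable, ← lintegral_const_mul' _ _ ENNReal.ofReal_ne_top]
  refine lintegral_mono fun y => ?_
  change ∫⁻ z : E3, Phi L a τ z y * W y ≤ _
  rw [lintegral_mul_const _ (Phi_meas1 L a τ y)]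
  exact mul_le_mul_left (hz y) _

theorem cellcv {K n : ℕ} {c0 : ℝ} {a τ : Z2} {G : E2 → ℂ}
    (hcell : ∀ η, G η ≠ 0 → ∀ k, |2 * η k - (ix K n a τ k : ℝ) / 2 ^ (K * n)| ≤ c0 / 2 ^ (K * n)) :
    ∀ η, G η ≠ 0 → ∀ i, |η i - ((1 / 2 : ℝ) • (sl ((2:ℝ) ^ (K * n)) τ + lp a)) i| ≤ c0 / 2 / (2:ℝ) ^ (K * n) := by
  intro η hη i
  have h3 := hcell η hη i
  have e : 2 * η i - (ix K n a τ i : ℝ) / 2 ^ (K * n) = 2 * (η i - ((1 / 2 : ℝ) • (sl (2 ^ (K * n)) τ + lp a)) i) := by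
    unfold sl ix
    simp only [PiLp.smul_apply, PiLp.add_apply, smul_eq_mul, lp_apply]
    push_cast
    field_simp
  rw [e, abs_mul, abs_two] at h3
  have : c0 / 2 / 2 ^ (K * n) = (c0 / 2 ^ (K * n)) / 2 := by ring
  rw [this]
  linarith

theorem plate1 (c0 : ℝ) {C0 : ℝ} (hC : 1 ≤ C0) : ∃ C : ℝ, 0 ≤ C ∧ ∀ (K n M : ℕ) (a τ : Z2) (G : E2 → ℂ) (p θ b v d : ℝ)
    (T : ℤ) (U : Finset Nd), 7 ≤ M → ASM.Bd 2 G →
    (∀ η, G η ≠ 0 → ∀ k, |2 * η k - (ix K n a τ k : ℝ) / 2 ^ (K * n)| ≤ c0 / 2 ^ (K * n)) →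
    (∀ k, 0 ≤ τ k ∧ τ k < 2 ^ (K * n)) → 1 ≤ p → p ≤ 2 ^ (K * n) → 1 ≤ d → |fn θ (slp n K τ) - v| ≤ p / 2 ^ (K * n) →
    |(T : ℝ)| ≤ C0 * d →
    (∀ S ∈ U, S.τ = τ ∧ S.T = T ∧ |fn θ (fun k => (S.o k : ℝ)) - b| ≤ p ∧ ∀ k, |(S.o k : ℝ)| ≤ C0 * d * 2 ^ (K * n)) →
    ∑ S ∈ U, am2 M n K S (𝓕⁻ (g3 (2 ^ (2 * K * n)) a G)) ≤ ENNReal.ofReal (C * d ^ 4 * ((2 ^ (2 * K * n))⁻¹)) *
      ∫⁻ y : E2, ‖𝓕⁻ G y‖ₑ ^ 2 * ENNReal.ofReal (((plw p (2 ^ (K * n)) θ (2 * (b * 2 ^ (K * n) - v * (2 ^ (2 * K * n) * T))) y) ^ 4)⁻¹) := by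
  obtain ⟨Ca, hCa, ha⟩ := sum_w hC
  obtain ⟨Ck, hCk, hk⟩ := ptw c0
  obtain ⟨Cz, hCz, hz⟩ := int_z
  refine ⟨Ca * Ck * C0 ^ 4 * Cz, by positivity, ?_⟩
  intro K n M a τ G p θ b v d T U hM hG hcell hτ hp hpL hd hv hT hU
  rcases U.eq_empty_or_nonempty with hUe | ⟨S0, hS0⟩
  · rw [hUe]; simp
  have hC0 : 0 < C0 := by linarith
  have hcell' := cellcv hcell
  have hsl : slp n K τ = fun k => (τ k : ℝ) / 2 ^ (K * n) := rfl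
  have haz := fun z => ha K n M p θ b d τ T U hM hp hd hpL hU z
  obtain ⟨hi, h2⟩ := bd_int hG
  have mF : Measurable (fun z : E3 => ‖𝓕⁻ (g3 (2 ^ (2 * K * n)) a G) z‖ₑ ^ 2) :=
    (Vale.Agent.P122.AN.continuous_inv (g3_int (by positivity) hi hG.meas)).measurable.enorm.pow_const 2
  rw [sum_am2 M n K U mF]
  rw [pow_RL K n] at haz mF ⊢
  have hL : (1:ℝ) ≤ 2 ^ (K * n) := one_le_pow₀ (by norm_num)
  have hτ' : ∀ k, 0 ≤ (τ k : ℝ) ∧ (τ k : ℝ) ≤ 2 ^ (K * n) := by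
    intro k
    obtain ⟨h1, h2⟩ := hτ k
    exact ⟨by exact_mod_cast h1, by exact_mod_cast h2.le⟩
  have hb : |b| ≤ (2 * (C0 * d) + 1) * 2 ^ (K * n) := by
    obtain ⟨-, -, h3, h4⟩ := hU S0 hS0
    have h5 : |fn θ (fun k => (S0.o k : ℝ))| ≤ 2 * (C0 * d) * 2 ^ (K * n) := by
      refine (abs_fn_le θ _).trans ?_
      linarith [h4 0, h4 1]
    have h6 : |b| ≤ |fn θ (fun k => (S0.o k : ℝ))| + |fn θ (fun k => (S0.o k : ℝ)) - b| := by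
      have := abs_sub_abs_le_abs_sub b (fn θ (fun k => (S0.o k : ℝ)))
      rw [abs_sub_comm] at this
      linarith
    nlinarith
  clear hU hτ hcell ha hS0
  rw [hsl] at haz hv
  generalize (2:ℝ) ^ (K * n) = L at hL haz mF hτ' hv hb hpL hcell' ⊢
  have hL0 : 0 < L := by linarith
  have hC' : 1 ≤ C0 * d := one_le_mul_of_one_le_of_one_le hC hd
  have hpt := fun z => hk (C0 * d) L (d * L ^ 2) p θ b v a τ T G hC' hL hG hcell' (by positivity)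
    (by have : d ≤ C0 * d := le_mul_of_one_le_left (by positivity) hC
        gcongr) hp hpL hτ' hv hT hb z
  have mW := wy_meas hi p L θ (2 * (b * L - v * (L ^ 2 * T)))
  have hton := tonelli a τ mW (hz L a τ · hL0)
  generalize (∫⁻ y : E2, ‖𝓕⁻ G y‖ₑ ^ 2 * ENNReal.ofReal (((plw p L θ (2 * (b * L - v * (L ^ 2 * T))) y) ^ 4)⁻¹)) = J at hton ⊢
  have c1 : ∀ z, ‖𝓕⁻ (g3 (L ^ 2) a G) z‖ₑ ^ 2 * ∑ S ∈ U, wN M n K S z ≤
      ENNReal.ofReal (Ca * (Ck * (C0 * d) ^ 4)) * ∫⁻ y, Phi L a τ z y *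
        (‖𝓕⁻ G y‖ₑ ^ 2 * ENNReal.ofReal (((plw p L θ (2 * (b * L - v * (L ^ 2 * T))) y) ^ 4)⁻¹)) := by
    intro z
    refine (mul_le_mul_right (haz z) _).trans ?_
    rw [mul_left_comm, ENNReal.ofReal_mul hCa, mul_assoc (ENNReal.ofReal Ca)]
    exact mul_le_mul_right (hpt z) _
  calc ENNReal.ofReal ((L ^ 4)⁻¹) * ∫⁻ z, ‖𝓕⁻ (g3 (L ^ 2) a G) z‖ₑ ^ 2 * ∑ S ∈ U, wN M n K S z ≤
      ENNReal.ofReal ((L ^ 4)⁻¹) * ∫⁻ z, ENNReal.ofReal (Ca * (Ck * (C0 * d) ^ 4)) * ∫⁻ y, Phi L a τ z y *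
        (‖𝓕⁻ G y‖ₑ ^ 2 * ENNReal.ofReal (((plw p L θ (2 * (b * L - v * (L ^ 2 * T))) y) ^ 4)⁻¹)) :=
        mul_le_mul_right (lintegral_mono c1) _
    _ = ENNReal.ofReal ((L ^ 4)⁻¹) * (ENNReal.ofReal (Ca * (Ck * (C0 * d) ^ 4)) * ∫⁻ z, ∫⁻ y, Phi L a τ z y *
        (‖𝓕⁻ G y‖ₑ ^ 2 * ENNReal.ofReal (((plw p L θ (2 * (b * L - v * (L ^ 2 * T))) y) ^ 4)⁻¹))) := by
        rw [lintegral_const_mul' _ _ ENNReal.ofReal_ne_top]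
    _ ≤ ENNReal.ofReal ((L ^ 4)⁻¹) * (ENNReal.ofReal (Ca * (Ck * (C0 * d) ^ 4)) * (ENNReal.ofReal (Cz * L ^ 2) * J)) :=
        mul_le_mul_right (mul_le_mul_right hton _) _
    _ = _ := by
        rw [← mul_assoc, ← mul_assoc, ← ENNReal.ofReal_mul (by positivity),
          ← ENNReal.ofReal_mul (by positivity)]
        congr 2
        field_simp

end Vale.Agent.P076.H223
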