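import Vale.Agent.P076.H223.Plate5
import Vale.Agent.P076.H322.STDefs

/-! # P076 / H223 : no thick plate (`plm`) ⟹ no thick plate (tubes) -/

open MeasureTheory Complex Set FourierTransform Vale.Agent.P122.C2 Vale.Agent.P122.AN
open scoped ENNReal NNReal ContDiff

set_option linter.all false

namespace Vale.Agent.P076.H223

open Vale.Agent.P122.R301 (ec norm_ec enorm_ec ec_add ec_zero ec_neg continuous_ec)
open ASM (lp)

theorem planch2 {r : ℝ} {G : E2 → ℂ} (hG : ASM.Bd r G) : ∫⁻ y, ‖𝓕⁻ G y‖ₑ ^ 2 = ∫⁻ η, ‖G η‖ₑ ^ 2 := by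
  obtain ⟨hi, h2⟩ := bd_int hG
  rw [← Vale.Agent.P122.FI.planch G hi h2]
  refine lintegral_congr fun x => ?_
  rw [Vale.Agent.P122.FI.inv_eq_int]

theorem cont_inv2 {G : E2 → ℂ} (hi : Integrable G) : Continuous (𝓕⁻ G : E2 → ℂ) := by
  have h4 : (𝓕⁻ G : E2 → ℂ) = fun x => 𝓕 G (-x) := by
    ext x
    exact Real.fourierInv_eq_fourier_neg _ _
  rw [h4]
  exact (Vale.Agent.P122.FI.continuous_four hi).comp continuous_neg

theorem int_sq {r : ℝ} {G : E2 → ℂ} (hG : ASM.Bd r G) : Integrable (fun y => ‖(𝓕⁻ G : E2 → ℂ) y‖ ^ 2) := by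
  obtain ⟨hi, h2⟩ := bd_int hG
  refine ⟨((cont_inv2 hi).norm.pow 2).aestronglyMeasurable, ?_⟩
  unfold HasFiniteIntegral
  have e : ∀ y, ‖‖(𝓕⁻ G : E2 → ℂ) y‖ ^ 2‖ₑ = ‖𝓕⁻ G y‖ₑ ^ 2 := by
    intro y
    rw [enorm_pow, enorm_norm]
  simp only [e]
  rw [planch2 hG, lint_eq h2]
  exact ENNReal.ofReal_lt_top

theorem plw_ge (p L θ β : ℝ) (hp : 0 ≤ p) (hL : 0 < L) (y : E2) : 1 ≤ plw p L θ β y := by
  unfold plw
  have h1 : 0 ≤ |fn θ (fun k => y k) - β| / (p * L) := by positivity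
  have h2 : 0 ≤ ‖y‖ / L ^ 2 := by positivity
  linarith

/-- one piece in a plate -/
noncomputable def pl1 (p L θ β : ℝ) (G : E2 → ℂ) : ℝ := ∫ y : E2, ‖(𝓕⁻ G : E2 → ℂ) y‖ ^ 2 * ((plw p L θ β y) ^ 4)⁻¹

theorem pl1_int {r : ℝ} {G : E2 → ℂ} (hG : ASM.Bd r G) {p L θ β : ℝ} (hp : 0 ≤ p) (hL : 0 < L) :
    Integrable (fun y : E2 => ‖(𝓕⁻ G : E2 → ℂ) y‖ ^ 2 * ((plw p L θ β y) ^ 4)⁻¹) := by
  refine (int_sq hG).mono' ?_ ?_
  · exact ((cont_inv2 (bd_int hG).1).norm.pow 2).aestronglyMeasurable.mul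
      ((plw_meas p L θ β).pow_const 4).inv.aestronglyMeasurable
  · filter_upwards with y
    have h := plw_ge p L θ β hp hL y
    have h1 : ((plw p L θ β y) ^ 4)⁻¹ ≤ 1 := inv_le_one_of_one_le₀ (one_le_pow₀ h)
    have h0 : 0 ≤ ((plw p L θ β y) ^ 4)⁻¹ := by positivity
    rw [norm_mul, norm_pow, norm_norm, Real.norm_of_nonneg h0]
    exact mul_le_of_le_one_right (by positivity) h1

theorem pl1_eq {r : ℝ} {G : E2 → ℂ} (hG : ASM.Bd r G) {p L θ β : ℝ} (hp : 0 ≤ p) (hL : 0 < L) :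
    ∫⁻ y : E2, ‖𝓕⁻ G y‖ₑ ^ 2 * ENNReal.ofReal (((plw p L θ β y) ^ 4)⁻¹) = ENNReal.ofReal (pl1 p L θ β G) := by
  unfold pl1
  rw [ofReal_integral_eq_lintegral_ofReal (pl1_int hG hp hL) (by
    filter_upwards with y
    have h := plw_ge p L θ β hp hL y
    positivity)]
  refine lintegral_congr fun y => ?_
  rw [ENNReal.ofReal_mul (by positivity), ENNReal.ofReal_pow (norm_nonneg _), ofReal_norm]

theorem pl1_nonneg {p L θ β : ℝ} {G : E2 → ℂ} (hp : 0 ≤ p) (hL : 0 < L) : 0 ≤ pl1 p L θ β G := by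
  unfold pl1
  refine integral_nonneg fun y => ?_
  have h := plw_ge p L θ β hp hL y
  positivity

theorem pl1_mono {r : ℝ} {G : E2 → ℂ} (hG : ASM.Bd r G) {p p' L θ β : ℝ} (hp : 0 < p) (hpp : p ≤ p') (hL : 0 < L) :
    pl1 p L θ β G ≤ pl1 p' L θ β G := by
  unfold pl1
  refine integral_mono (pl1_int hG hp.le hL) (pl1_int hG (hp.le.trans hpp) hL) fun y => ?_
  have h1 : plw p' L θ β y ≤ plw p L θ β y := by
    unfold plw
    gcongr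
  have h := plw_ge p' L θ β (hp.le.trans hpp) hL y
  have h0 : 0 < plw p' L θ β y := by linarith
  beta_reduce
  gcongr

theorem plm_eq (p L θ v β : ℝ) (T : Finset Z2) (H : Z2 → E2 → ℂ) :
    ASM.plm p L θ v β T H = ∑ τ ∈ T.filter (fun τ => |fn θ (fun k => (τ k : ℝ) / L) - v| ≤ p / L), pl1 p L θ β (H τ) := rfl

theorem plm_mono {L c0 : ℝ} {T : Finset Z2} {H : Z2 → E2 → ℂ} (hF : ASM.Fam L c0 T H) (hL : 0 < L) {p p' : ℝ} (hp : 0 < p)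
    (hpp : p ≤ p') (θ v β : ℝ) : ASM.plm p L θ v β T H ≤ ASM.plm p' L θ v β T H := by
  rw [plm_eq, plm_eq]
  refine (Finset.sum_le_sum fun τ hτ => pl1_mono (hF.bd τ (Finset.mem_filter.1 hτ).1) hp hpp hL).trans ?_
  refine Finset.sum_le_sum_of_subset_of_nonneg ?_ fun τ _ _ => pl1_nonneg (hp.le.trans hpp) hL
  intro τ hτ
  rw [Finset.mem_filter] at hτ ⊢
  refine ⟨hτ.1, hτ.2.trans ?_⟩
  gcongr

/-- energies in a plate -/
theorem plate_sum (c0 : ℝ) {C0 : ℝ} (hC : 1 ≤ C0) : ∃ C : ℝ, 0 ≤ C ∧ ∀ (K n M : ℕ) (a : Z2) (T : Finset Z2) (H : Z2 → E2 → ℂ)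
    (p θ b v d : ℝ) (t : ℤ) (U : Finset Nd), 7 ≤ M → ASM.Fam (2 ^ (K * n)) c0 T H → 1 ≤ p → p ≤ 2 ^ (K * n) → 1 ≤ d →
    |(t : ℝ)| ≤ C0 * d →
    (∀ S ∈ U, S.T = t ∧ |fn θ (slp n K S.τ) - v| ≤ p / 2 ^ (K * n) ∧ |fn θ (fun k => (S.o k : ℝ)) - b| ≤ p ∧
      ∀ k, |(S.o k : ℝ)| ≤ C0 * d * 2 ^ (K * n)) →
    ∑ S ∈ U, am2 M n K S (𝓕⁻ (gf K n a T H S.τ)) ≤ ENNReal.ofReal (C * d ^ 4 * ((2 ^ (2 * K * n))⁻¹) *
      ASM.plm p (2 ^ (K * n)) θ (v + fn θ (fun k => (a k : ℝ))) (2 * (b * 2 ^ (K * n) - v * (2 ^ (2 * K * n) * t))) T H) := by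
  obtain ⟨C, hC0, h1⟩ := plate1 c0 hC
  refine ⟨C, hC0, ?_⟩
  intro K n M a T H p θ b v d t U hM hF hp hpL hd hT hU
  classical
  have hL0 : (0:ℝ) < 2 ^ (K * n) := by positivity
  have hp0 : 0 < p := by linarith
  set β := 2 * (b * 2 ^ (K * n) - v * (2 ^ (2 * K * n) * (t:ℝ))) with hβ
  set V := v + fn θ (fun k => (a k : ℝ)) with hV
  set J : Finset Z2 := (U.image Nd.τ).filter (fun τ => (∀ k, 0 ≤ τ k ∧ τ k < 2 ^ (K * n)) ∧ ix K n a τ ∈ T) with hJ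
  have s1 : ∑ S ∈ U, am2 M n K S (𝓕⁻ (gf K n a T H S.τ)) =
      ∑ τ ∈ U.image Nd.τ, ∑ S ∈ U.filter (fun S => S.τ = τ), am2 M n K S (𝓕⁻ (gf K n a T H τ)) := by
    rw [← Finset.sum_fiberwise_of_maps_to (s := U) (t := U.image Nd.τ) (g := Nd.τ) (fun S hS => Finset.mem_image_of_mem _ hS)]
    refine Finset.sum_congr rfl fun τ hτ => Finset.sum_congr rfl fun S hS => ?_
    rw [(Finset.mem_filter.1 hS).2]
  have s2 : ∀ τ ∈ U.image Nd.τ, ∑ S ∈ U.filter (fun S => S.τ = τ), am2 M n K S (𝓕⁻ (gf K n a T H τ)) ≤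
      if (∀ k, 0 ≤ τ k ∧ τ k < 2 ^ (K * n)) ∧ ix K n a τ ∈ T then ENNReal.ofReal (C * d ^ 4 * ((2 ^ (2 * K * n))⁻¹)) *
        ENNReal.ofReal (pl1 p (2 ^ (K * n)) θ β (H (ix K n a τ))) else 0 := by
    intro τ hτ
    by_cases h : (∀ k, 0 ≤ τ k ∧ τ k < 2 ^ (K * n)) ∧ ix K n a τ ∈ T
    · rw [if_pos h]
      have e : gf K n a T H τ = g3 (2 ^ (2 * K * n)) a (H (ix K n a τ)) := by
        unfold gf
        rw [if_pos h]
      rw [e, ← pl1_eq (hF.bd _ h.2) hp0.le hL0]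
      obtain ⟨S1, hS1, hS1τ⟩ := Finset.mem_image.1 hτ
      refine h1 K n M a τ (H (ix K n a τ)) p θ b v d t _ hM (hF.bd _ h.2) (hF.cell _ h.2) h.1 hp hpL hd ?_ hT ?_
      · rw [← hS1τ]; exact (hU S1 hS1).2.1
      · intro S hS
        obtain ⟨hS, hSτ⟩ := Finset.mem_filter.1 hS
        obtain ⟨h2, h3, h4, h5⟩ := hU S hS
        exact ⟨hSτ, h2, h4, h5⟩
    · rw [if_neg h]
      have e : gf K n a T H τ = 0 := by
        unfold gf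
        rw [if_neg h]
      rw [e]
      simp only [am2, Real.fourierInv_eq']
      simp
  rw [s1]
  refine (Finset.sum_le_sum s2).trans ?_
  rw [← Finset.sum_filter, ← hJ, ← Finset.mul_sum, ENNReal.ofReal_mul (p := C * d ^ 4 * ((2 ^ (2 * K * n))⁻¹)) (by positivity)]
  refine mul_le_mul' le_rfl ?_
  rw [← ENNReal.ofReal_sum_of_nonneg (fun τ _ => pl1_nonneg hp0.le hL0)]
  apply ENNReal.ofReal_le_ofReal
  rw [plm_eq]
  have s3 : ∑ τ ∈ J, pl1 p (2 ^ (K * n)) θ β (H (ix K n a τ)) = ∑ τ ∈ J.image (ix K n a), pl1 p (2 ^ (K * n)) θ β (H τ) := by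
    rw [Finset.sum_image (fun x _ y _ h => ix_inj K n a h)]
  rw [s3]
  refine Finset.sum_le_sum_of_subset_of_nonneg ?_ fun τ _ _ => pl1_nonneg hp0.le hL0
  intro τ' hτ'
  obtain ⟨τ, hτ, rfl⟩ := Finset.mem_image.1 hτ'
  obtain ⟨h2, h3⟩ := Finset.mem_filter.1 hτ
  obtain ⟨S1, hS1, hS1τ⟩ := Finset.mem_image.1 h2
  refine Finset.mem_filter.2 ⟨h3.2, ?_⟩
  have h4 := (hU S1 hS1).2.1
  rw [hS1τ] at h4
  have e : fn θ (fun k => (ix K n a τ k : ℝ) / 2 ^ (K * n)) - V = fn θ (slp n K τ) - v := by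
    rw [hV]
    unfold fn slp ix
    push_cast
    field_simp
    ring
  rw [e]
  exact h4

/-- **(P3)** `plm` has no thick plate ⟹ the tubes have no thick plate -/
theorem noPlD_gf (c0 : ℝ) {C0 : ℝ} (hC : 1 ≤ C0) : ∃ C1 : ℝ, 0 ≤ C1 ∧ ∀ (K n M : ℕ) (a : Z2) (T : Finset Z2)
    (H : Z2 → E2 → ℂ) (Q c c' : ℝ), 7 ≤ M → 0 < c' → c' ≤ 1 → c' ≤ c → 4 ≤ K * (c - c') → ASM.Fam (2 ^ (K * n)) c0 T H →
    0 ≤ Q → (∀ θ v b : ℝ, ASM.plm ((2 ^ (K * n)) ^ c) (2 ^ (K * n)) θ v b T H ≤ (2 ^ (K * n)) ^ (-c) * Q) →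
    H322.NoPlD M K n (gf K n a T H) c' C0 (C1 * Q) := by
  obtain ⟨C, hC0, h1⟩ := plate_sum c0 hC
  refine ⟨C, hC0, ?_⟩
  intro K n M a T H Q c c' hM hc'0 hc'1 hc'c hK hF hQ hpl t θ v b U ht hU
  have hL0 : (0:ℝ) < 2 ^ (K * n) := by positivity
  have hp1 : (1:ℝ) ≤ 2 ^ (c' * (K * n)) := Real.one_le_rpow (by norm_num) (by positivity)
  have hLr : ((2:ℝ) ^ (K * n) : ℝ) = (2:ℝ) ^ ((K:ℝ) * n) := by
    rw [← Real.rpow_natCast]; push_cast; rfl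
  have hpL : (2:ℝ) ^ (c' * (K * n)) ≤ 2 ^ (K * n) := by
    rw [hLr]
    apply Real.rpow_le_rpow_of_exponent_le (by norm_num)
    have : (0:ℝ) ≤ K * n := by positivity
    nlinarith
  have hd : (1:ℝ) ≤ 2 ^ n := one_le_pow₀ (by norm_num)
  have h2 := h1 K n M a T H (2 ^ (c' * (K * n))) θ b v (2 ^ n) t U hM hF hp1 hpL hd ht (fun S hS => by
    obtain ⟨e1, e2, e3, e4⟩ := hU S hS
    exact ⟨e1, e2, e3, e4⟩)
  refine h2.trans (ENNReal.ofReal_le_ofReal ?_)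
  have hpp : (2:ℝ) ^ (c' * (K * n)) ≤ (2 ^ (K * n)) ^ c := by
    rw [hLr, ← Real.rpow_mul (by norm_num)]
    apply Real.rpow_le_rpow_of_exponent_le (by norm_num)
    have : (0:ℝ) ≤ K * n := by positivity
    nlinarith
  have h3 := (plm_mono hF hL0 (by positivity) hpp θ (v + fn θ (fun k => (a k : ℝ)))
    (2 * (b * 2 ^ (K * n) - v * (2 ^ (2 * K * n) * t)))).trans (hpl _ _ _)
  have h4 : ((2:ℝ) ^ n) ^ 4 * (2 ^ (K * n)) ^ (-c) ≤ 2 ^ (-c' * (K * n)) := by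
    rw [hLr, ← Real.rpow_mul (by norm_num), ← pow_mul, ← Real.rpow_natCast, ← Real.rpow_add (by norm_num)]
    apply Real.rpow_le_rpow_of_exponent_le (by norm_num)
    push_cast
    have : (0:ℝ) ≤ n := by positivity
    nlinarith
  calc C * (2 ^ n) ^ 4 * (2 ^ (2 * K * n))⁻¹ * ASM.plm (2 ^ (c' * (K * n))) (2 ^ (K * n)) θ (v + fn θ fun k => (a k : ℝ))
        (2 * (b * 2 ^ (K * n) - v * (2 ^ (2 * K * n) * t))) T H ≤
      C * (2 ^ n) ^ 4 * (2 ^ (2 * K * n))⁻¹ * ((2 ^ (K * n)) ^ (-c) * Q) := by gcongr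
    _ = C * ((2 ^ n) ^ 4 * (2 ^ (K * n)) ^ (-c)) * ((2 ^ (2 * K * n))⁻¹ * Q) := by ring
    _ ≤ C * 2 ^ (-c' * (K * n)) * ((2 ^ (2 * K * n))⁻¹ * Q) := by gcongr
    _ = _ := by ring

end Vale.Agent.P076.H223
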