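import Vale.Agent.P076.H223.Fam

/-! # P076 / H223 : total mass; splitting of the evolution into squares of slopes -/

open MeasureTheory Complex Set FourierTransform Vale.Agent.P122.C2 Vale.Agent.P122.AN
open scoped ENNReal NNReal ContDiff

set_option linter.all false

namespace Vale.Agent.P076.H223

open Vale.Agent.P122.R301 (ec norm_ec enorm_ec ec_add ec_zero ec_neg continuous_ec)
open ASM (lp)

variable {K n : ℕ} {c0 : ℝ} {T : Finset Z2} {H : Z2 → E2 → ℂ}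

theorem mem_desc0 {θ : Z2} : θ ∈ desc K n 0 0 ↔ ∀ k, 0 ≤ θ k ∧ θ k < 2 ^ (K * n) := by
  unfold desc
  simp

theorem ix_inj (K n : ℕ) (a : Z2) : Function.Injective (ix K n a) := by
  intro θ θ' h
  ext k
  have := congrFun h k
  unfold ix at this
  linarith

theorem lint_eq {G : E2 → ℂ} (h2 : MemLp G 2) : ∫⁻ η, ‖G η‖ₑ ^ 2 = ENNReal.ofReal (∫ η, ‖G η‖ ^ 2) := by
  rw [ofReal_integral_eq_lintegral_ofReal (by
    have := h2.integrable_norm_pow (by norm_num)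
    simpa using this) (by filter_upwards with η; positivity)]
  refine lintegral_congr fun η => ?_
  rw [ENNReal.ofReal_pow (norm_nonneg _), ofReal_norm]

theorem ms_gf (hF : ASM.Fam (2 ^ (K * n)) c0 T H) {Q : ℝ} (hQ : ∑ τ ∈ T, ∫ η, ‖H τ η‖ ^ 2 ≤ Q) (a : Z2) :
    NS.ms K n (gf K n a T H) ≤ ENNReal.ofReal Q := by
  have hR : (0:ℝ) < 2 ^ (2 * K * n) := by positivity
  unfold NS.ms
  classical
  set F : Z2 → ℝ≥0∞ := fun τ => ENNReal.ofReal (2 ^ (2 * K * n)) * ∫⁻ η, ‖H τ η‖ₑ ^ 2 with hFd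
  have h1 : ∑ θ ∈ desc K n 0 0, ∫⁻ z, ‖𝓕⁻ (gf K n a T H θ) z‖ₑ ^ 2 ≤
      ENNReal.ofReal (2 ^ (2 * K * n)) * ∑ τ ∈ T, ∫⁻ η, ‖H τ η‖ₑ ^ 2 := by
    have s1 : ∑ θ ∈ desc K n 0 0, ∫⁻ z, ‖𝓕⁻ (gf K n a T H θ) z‖ₑ ^ 2 ≤
        ∑ θ ∈ (desc K n 0 0).filter (fun θ => ix K n a θ ∈ T), F (ix K n a θ) := by
      rw [Finset.sum_filter]
      refine Finset.sum_le_sum fun θ hθ => ?_
      by_cases h : ix K n a θ ∈ T
      · rw [if_pos h]
        have e : gf K n a T H θ = g3 (2 ^ (2 * K * n)) a (H (ix K n a θ)) := by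
          unfold gf
          rw [if_pos ⟨mem_desc0.1 hθ, h⟩]
        rw [e]
        exact mass_g3 hR (hF.bd _ h).meas (bd_int (hF.bd _ h)).1 (bd_int (hF.bd _ h)).2
      · rw [if_neg h]
        have e : gf K n a T H θ = 0 := by
          unfold gf
          rw [if_neg (fun h' => h h'.2)]
        rw [e]
        simp only [Real.fourierInv_eq']
        simp
    have s2 : ∑ θ ∈ (desc K n 0 0).filter (fun θ => ix K n a θ ∈ T), F (ix K n a θ) =
        ∑ τ ∈ ((desc K n 0 0).filter (fun θ => ix K n a θ ∈ T)).image (ix K n a), F τ :=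
      (Finset.sum_image fun x _ y _ h => ix_inj K n a h).symm
    have s3 : ∑ τ ∈ ((desc K n 0 0).filter (fun θ => ix K n a θ ∈ T)).image (ix K n a), F τ ≤ ∑ τ ∈ T, F τ := by
      refine Finset.sum_le_sum_of_subset ?_
      intro τ hτ
      obtain ⟨θ, hθ, rfl⟩ := Finset.mem_image.1 hτ
      exact (Finset.mem_filter.1 hθ).2
    have s4 : ∑ τ ∈ T, F τ = ENNReal.ofReal (2 ^ (2 * K * n)) * ∑ τ ∈ T, ∫⁻ η, ‖H τ η‖ₑ ^ 2 := by
      rw [Finset.mul_sum]
    rw [← s4]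
    exact (s1.trans (le_of_eq s2)).trans s3
  calc _ ≤ ENNReal.ofReal ((2 ^ (2 * K * n))⁻¹) * (ENNReal.ofReal (2 ^ (2 * K * n)) * ∑ τ ∈ T, ∫⁻ η, ‖H τ η‖ₑ ^ 2) := by gcongr
    _ = ∑ τ ∈ T, ∫⁻ η, ‖H τ η‖ₑ ^ 2 := by
        rw [← mul_assoc, ← ENNReal.ofReal_mul (by positivity), inv_mul_cancel₀ hR.ne', ENNReal.ofReal_one, one_mul]
    _ = ENNReal.ofReal (∑ τ ∈ T, ∫ η, ‖H τ η‖ ^ 2) := by
        rw [ENNReal.ofReal_sum_of_nonneg (fun τ _ => by positivity)]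
        exact Finset.sum_congr rfl fun τ hτ => lint_eq (bd_int (hF.bd _ hτ)).2
    _ ≤ _ := ENNReal.ofReal_le_ofReal hQ

open Classical in
/-- evolution of the part of the data in the square `a` -/
noncomputable def evs (K n : ℕ) (a : Z2) (T : Finset Z2) (H : Z2 → E2 → ℂ) (x : E2) (t : ℝ) : ℂ :=
  ∑ θ ∈ desc K n 0 0, if ix K n a θ ∈ T then evo (H (ix K n a θ)) x t 0 else 0

theorem pie_gf (hF : ASM.Fam (2 ^ (K * n)) c0 T H) (a : Z2) (z : E3) :
    pie K n (gf K n a T H) 0 0 z = 4 * ph0 (z 2 / 2 ^ (2 * K * n)) *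
      ec (-(inner ℝ (lp a) (up z) + z 2 * ‖lp a‖ ^ 2 / 2)) *
        evs K n a T H ((2 : ℝ) • up z + (2 * z 2) • lp a) (2 * z 2) := by
  have hR : (0:ℝ) < 2 ^ (2 * K * n) := by positivity
  unfold pie evs
  rw [Finset.mul_sum]
  refine Finset.sum_congr rfl fun θ hθ => ?_
  unfold gf
  by_cases h : ix K n a θ ∈ T
  · rw [if_pos ⟨mem_desc0.1 hθ, h⟩, if_pos h]
    exact four_g3 hR (bd_int (hF.bd _ h)).1 (hF.bd _ h).meas z
  · rw [if_neg (fun h' => h h'.2), if_neg h, mul_zero]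
    simp only [Real.fourierInv_eq']
    simp

theorem norm_pie_ge (hF : ASM.Fam (2 ^ (K * n)) c0 T H) (a : Z2) (z : E3) (hz : |z 2| ≤ 2 ^ (2 * K * n)) :
    ‖evs K n a T H ((2 : ℝ) • up z + (2 * z 2) • lp a) (2 * z 2)‖ ≤ 4 * ‖pie K n (gf K n a T H) 0 0 z‖ := by
  have hR : (0:ℝ) < 2 ^ (2 * K * n) := by positivity
  rw [pie_gf hF]
  rw [norm_mul, norm_mul, norm_mul, norm_ec]
  have h1 : |z 2 / 2 ^ (2 * K * n)| ≤ 1 := by
    rw [abs_div, abs_of_pos hR, div_le_one hR]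
    exact hz
  have h2 := ph0_lower h1
  have h3 : (0:ℝ) ≤ ‖evs K n a T H ((2 : ℝ) • up z + (2 * z 2) • lp a) (2 * z 2)‖ := norm_nonneg _
  have h4 : ‖(4 : ℂ)‖ = 4 := by norm_num
  rw [h4]
  nlinarith

/-- squares `a` with `|a k| ≤ N` -/
noncomputable def bx (N : ℕ) : Finset Z2 := Fintype.piFinset fun _ => Finset.Icc (-(N : ℤ)) N

theorem evo_zero_fun {G : E2 → ℂ} (h : ∀ η, G η = 0) (x : E2) (t : ℝ) : evo G x t 0 = 0 := by
  unfold evo
  simp [h]

theorem evo_sum {s : Finset Z2} (h : ∀ τ ∈ s, Integrable (H τ)) (x : E2) (t : ℝ) :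
    evo (fun η => ∑ τ ∈ s, H τ η) x t 0 = ∑ τ ∈ s, evo (H τ) x t 0 := by
  simp_rw [evo_eq, Finset.mul_sum]
  rw [integral_finset_sum]
  intro τ hτ
  refine (h τ hτ).norm.mono' ?_ ?_
  · have hc : Continuous (fun η : E2 => ph x t 0 η) := by
      unfold ph
      fun_prop
    exact hc.aestronglyMeasurable.mul (h τ hτ).aestronglyMeasurable
  · filter_upwards with η
    rw [norm_mul, norm_ph]
    simp

theorem evo_split (hF : ASM.Fam (2 ^ (K * n)) c0 T H) {N : ℕ} (hN : 5 + c0 ≤ N) (hc : 0 ≤ c0) (x : E2) (t : ℝ) :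
    evo (fun η => ∑ τ ∈ T, H τ η) x t 0 = ∑ a ∈ bx N, evs K n a T H x t := by
  classical
  have hL : (0:ℝ) < 2 ^ (K * n) := by positivity
  have hL1 : (1:ℝ) ≤ 2 ^ (K * n) := one_le_pow₀ (by norm_num)
  rw [evo_sum (fun τ hτ => (bd_int (hF.bd τ hτ)).1)]
  set sq : Z2 → Z2 := fun τ k => τ k / 2 ^ (K * n) with hsq
  -- the cells outside the box do not contribute
  have h0 : ∀ τ ∈ T, sq τ ∉ bx N → evo (H τ) x t 0 = 0 := by
    intro τ hτ ha
    refine evo_zero_fun (fun η => ?_) x t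
    by_contra hne
    apply ha
    have h1 := hF.cell τ hτ η hne
    have h2 := (hF.bd τ hτ).supp η hne
    unfold bx
    rw [Fintype.mem_piFinset]
    intro k
    have h3 : |η k| ≤ 2 := (by
      have := PiLp.norm_apply_le η k
      rw [Real.norm_eq_abs] at this
      exact this.trans h2)
    have h4 := h1 k
    have h5 : |(τ k : ℝ) / 2 ^ (K * n)| ≤ 4 + c0 := by
      have h6 : c0 / 2 ^ (K * n) ≤ c0 := div_le_self hc hL1
      have h7 : |(τ k : ℝ) / 2 ^ (K * n)| ≤ |2 * η k| + |2 * η k - τ k / 2 ^ (K * n)| := by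
        have := abs_sub_abs_le_abs_sub ((τ k : ℝ) / 2 ^ (K * n)) (2 * η k)
        rw [abs_sub_comm] at this
        linarith
      rw [abs_mul, abs_two] at h7
      linarith
    have h8 : ((τ k / 2 ^ (K * n) : ℤ) : ℝ) ≤ (τ k : ℝ) / 2 ^ (K * n) := by
      rw [le_div_iff₀ hL]
      have := Int.ediv_mul_le (τ k) (show ((2:ℤ) ^ (K * n)) ≠ 0 by positivity)
      exact_mod_cast this
    have h9 : (τ k : ℝ) / 2 ^ (K * n) < ((τ k / 2 ^ (K * n) : ℤ) : ℝ) + 1 := by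
      rw [div_lt_iff₀ hL]
      have := Int.lt_ediv_add_one_mul_self (τ k) (show (0:ℤ) < 2 ^ (K * n) by positivity)
      exact_mod_cast this
    rw [abs_le] at h5
    rw [Finset.mem_Icc]
    constructor
    · have : (-(N : ℝ)) ≤ ((τ k / 2 ^ (K * n) : ℤ) : ℝ) := by linarith
      exact_mod_cast this
    · have : ((τ k / 2 ^ (K * n) : ℤ) : ℝ) ≤ N := by linarith
      exact_mod_cast this
  have h1 : ∑ τ ∈ T, evo (H τ) x t 0 = ∑ τ ∈ T.filter (fun τ => sq τ ∈ bx N), evo (H τ) x t 0 := by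
    rw [Finset.sum_filter]
    refine Finset.sum_congr rfl fun τ hτ => ?_
    split_ifs with h
    · rfl
    · exact h0 τ hτ h
  rw [h1, ← Finset.sum_fiberwise_of_maps_to (g := sq) (t := bx N) (fun τ hτ => (Finset.mem_filter.1 hτ).2)]
  refine Finset.sum_congr rfl fun a ha => ?_
  unfold evs
  rw [← Finset.sum_filter]
  have hsub : ∀ τ : Z2, (∀ k, τ k / 2 ^ (K * n) = a k) →
      (∀ k, 0 ≤ τ k - 2 ^ (K * n) * a k ∧ τ k - 2 ^ (K * n) * a k < 2 ^ (K * n)) := by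
    intro τ h k
    rw [← h k]
    have h1 := Int.emod_nonneg (τ k) (show ((2:ℤ) ^ (K * n)) ≠ 0 by positivity)
    have h2 := Int.emod_lt_of_pos (τ k) (show (0:ℤ) < 2 ^ (K * n) by positivity)
    rw [Int.emod_def] at h1 h2
    exact ⟨h1, h2⟩
  refine Finset.sum_bij' (i := fun τ _ => fun k => τ k - 2 ^ (K * n) * a k) (j := fun θ _ => ix K n a θ) ?_ ?_ ?_ ?_ ?_
  · intro τ hτ
    rw [Finset.mem_filter, Finset.mem_filter] at hτ
    rw [Finset.mem_filter, mem_desc0]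
    have h2 : ix K n a (fun k => τ k - 2 ^ (K * n) * a k) = τ := by
      ext k; simp [ix]
    exact ⟨hsub τ fun k => congrFun hτ.2 k, by rw [h2]; exact hτ.1.1⟩
  · intro θ hθ
    rw [Finset.mem_filter, mem_desc0] at hθ
    rw [Finset.mem_filter, Finset.mem_filter]
    have h2 : sq (ix K n a θ) = a := by
      ext k
      simp only [hsq, ix]
      rw [Int.add_mul_ediv_left _ _ (by positivity), Int.ediv_eq_zero_of_lt (hθ.1 k).1 (hθ.1 k).2, zero_add]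
    exact ⟨⟨hθ.2, by rw [h2]; exact ha⟩, h2⟩
  · intro τ hτ
    ext k; simp [ix]
  · intro θ hθ
    ext k; simp [ix]
  · intro τ hτ
    have h2 : ix K n a (fun k => τ k - 2 ^ (K * n) * a k) = τ := by
      ext k; simp [ix]
    rw [h2]

end Vale.Agent.P076.H223
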